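import Vale.Agent.P211.H129.NCert
import Vale.Agent.P211.H129.Exact

set_option linter.all false

/-! P211 (helper210): `Core` from the three vertex certificates. -/

namespace Vale.Agent.P211.H210

open Vale.Agent.P211 Vale.Agent.P211.S4 Vale.Agent.P211.H626

/-- `Core` from the certificates at the vertices `(1,1)`, `(3/2,1/2)`, `(3,1/3)`. -/
theorem core_of_vc
    (h1 : ∀ {M 𝒪 V : Type} [TopologicalSpace M] [CommRing 𝒪] [Algebra ℝ 𝒪]
      [AddCommGroup V] [Module 𝒪 V] (G : Geo2 M 𝒪 V), VC G E3 aa aa' 1 1)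
    (h2 : ∀ {M 𝒪 V : Type} [TopologicalSpace M] [CommRing 𝒪] [Algebra ℝ 𝒪]
      [AddCommGroup V] [Module 𝒪 V] (G : Geo2 M 𝒪 V), VC G E3 aa aa' (3 / 2) (1 / 2))
    (h3 : ∀ {M 𝒪 V : Type} [TopologicalSpace M] [CommRing 𝒪] [Algebra ℝ 𝒪]
      [AddCommGroup V] [Module 𝒪 V] (G : Geo2 M 𝒪 V), VC G E3 aa aa' 3 (1 / 3)) :
    Core := by
  refine core_of_vertices (m0 := 3 / 8) (S := 3) (by norm_num) (by norm_num) (by norm_num)
    (fun G => H129.NO.nonly) h1 ?_ h3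
  intro M 𝒪 V _ _ _ _ _ G
  have := h2 G
  convert this using 1 <;> norm_num

/-- The conditions on one frozen certificate. -/
structure VOk (c : Cert) (x y : ℝ) : Prop where
  sm : ∀ {M 𝒪 V : Type} [TopologicalSpace M] [CommRing 𝒪] [Algebra ℝ 𝒪]
    [AddCommGroup V] [Module 𝒪 V] (G : Geo2 M 𝒪 V), c.Sm G
  bpos : ∀ N M p κ, Dom N M p κ → 0 ≤ c.B0.f N M + p * c.B1.f N M
  pw : ∀ N M p κ, Dom N M p κ → 0 < p →
    H129.PwX (c.co N M) (Cert.exP aa aa' x y N M) N M p κ (N ^ 2 * M ^ 2 / 10 ^ 4)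

theorem VOk.vc {c : Cert} {x y : ℝ} (h : VOk c x y) {M 𝒪 V : Type} [TopologicalSpace M]
    [CommRing 𝒪] [Algebra ℝ 𝒪] [AddCommGroup V] [Module 𝒪 V] (G : Geo2 M 𝒪 V) :
    VC G E3 aa aa' x y :=
  H129.vc_of_pwx (h.sm G) (fun N M => N ^ 2 * M ^ 2 / 10 ^ 4) (fun N M _ _ => by positivity)
    (fun N M hN hM => by positivity) h.bpos h.pw

/-- **`Core` from three frozen certificates.** -/
theorem core_of_vok {c0 c1 c2 : Cert} (h0 : VOk c0 1 1) (h1 : VOk c1 (3 / 2) (1 / 2))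
    (h2 : VOk c2 3 (1 / 3)) : Core :=
  core_of_vc (fun G => h0.vc G) (fun G => h1.vc G) (fun G => h2.vc G)

end Vale.Agent.P211.H210
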