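import Vale.Agent.P211.H210.Scale
import Vale.Agent.P211.H56.Orient2
import Vale.Agent.P211.Bdl.S3

set_option linter.all false

/-! P211 (helper210): closing: from the formal calculus to the final statement. -/

namespace Vale.Agent.P211.H210

open scoped Manifold ContDiff Topology
open Bundle VectorField Vale.Agent.P211 Vale.Agent.P211.S4 Vale.Agent.P211.H56

/-! ### polarisation -/

section polar

variable {V : Type*} [AddCommGroup V]

theorem polar0 (D : V → V → V → V → ℝ) (a12 : ∀ X Y Z W, D X Y Z W = - D Y X Z W)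
    (a34 : ∀ X Y Z W, D X Y Z W = - D X Y W Z) (pr : ∀ X Y Z W, D X Y Z W = D Z W X Y)
    (bi : ∀ X Y Z W, D X Y Z W + D Y Z X W + D Z X Y W = 0)
    (add1 : ∀ X X' Y Z W, D (X + X') Y Z W = D X Y Z W + D X' Y Z W)
    (h : ∀ X Y, D X Y Y X = 0) (X Y Z W : V) : D X Y Z W = 0 := by
  have add2 : ∀ X Y Y' Z W, D X (Y + Y') Z W = D X Y Z W + D X Y' Z W := by
    intro X Y Y' Z W
    rw [a12, add1, a12 Y, a12 Y']; ring
  have add3 : ∀ X Y Z Z' W, D X Y (Z + Z') W = D X Y Z W + D X Y Z' W := by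
    intro X Y Z Z' W
    rw [pr, add1, pr Z, pr Z']
  have add4 : ∀ X Y Z W W', D X Y Z (W + W') = D X Y Z W + D X Y Z W' := by
    intro X Y Z W W'
    rw [pr, add2, pr Z, pr Z W']
  have h2 : ∀ X Y Z, D X Y Z X = 0 := by
    intro X Y Z
    have h1 := h X (Y + Z)
    rw [add2, add3, add3, h, h] at h1
    have h3 : D X Z Y X = D X Y Z X := by
      rw [pr X Z Y X, a12, a34]; ring
    linarith
  have h3 : ∀ X Y Z W, D X Y Z W = - D W Y Z X := by
    intro X Y Z W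
    have h1 := h2 (X + W) Y Z
    rw [add1, add4, add4, h2, h2] at h1
    linarith
  have hb : D Y Z X W = D X Y Z W := by
    rw [h3 Y Z X W, pr W Z X Y, a34 X Y W Z]; ring
  have hc : D Z X Y W = D Y Z X W := by
    rw [h3 Z X Y W, pr W X Y Z, a34 Y Z W X]; ring
  have := bi X Y Z W
  linarith

end polar

section abs

variable {M 𝒪 V : Type*} [TopologicalSpace M] [CommRing 𝒪] [Algebra ℝ 𝒪]
    [AddCommGroup V] [Module 𝒪 V] {G : Geom M 𝒪 V}

theorem s2s2_full {lam : ℝ} {p : M} {F : Fin 4 → V}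
    (h : ∀ X Y, G.ev p (G.Rm X Y Y X) = lam * (G.ar p F X Y 0 1 ^ 2 + G.ar p F X Y 2 3 ^ 2))
    (X Y Z W : V) : G.ev p (G.Rm X Y Z W) = lam * (G.ar p F X Y 0 1 * G.ar p F W Z 0 1 +
      G.ar p F X Y 2 3 * G.ar p F W Z 2 3) := by
  have key := polar0 (fun X Y Z W : V => G.ev p (G.Rm X Y Z W) -
    lam * (G.ar p F X Y 0 1 * G.ar p F W Z 0 1 + G.ar p F X Y 2 3 * G.ar p F W Z 2 3))
    ?_ ?_ ?_ ?_ ?_ ?_ X Y Z W
  · exact sub_eq_zero.1 key
  · intro X Y Z W
    simp only [Geom.ar]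
    rw [G.Rm_anti12, map_neg]; ring
  · intro X Y Z W
    simp only [Geom.ar]
    rw [G.Rm_anti34, map_neg]; ring
  · intro X Y Z W
    simp only [Geom.ar]
    rw [G.Rm_pair]; ring
  · intro X Y Z W
    have := congrArg (G.ev p) (G.Rm_bianchi X Y Z W)
    rw [map_add, map_add, map_zero] at this
    simp only [Geom.ar]
    linear_combination this
  · intro X X' Y Z W
    simp only [Geom.ar, G.isT4_Rm.add1, G.g_add_left, map_add]
    ring
  · intro X Y
    rw [h X Y]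
    ring

end abs

/-! ### the blocks -/

theorem block_id {A : Fin 3 → Fin 3 → ℝ} (ht : A 0 0 + A 1 1 + A 2 2 = 3)
    (hs : ∑ i, ∑ j, A i j ^ 2 = 3) (i j : Fin 3) : A i j = if i = j then 1 else 0 := by
  simp only [Fin.sum_univ_three] at hs
  have key : (A 0 0 - 1) ^ 2 + (A 1 1 - 1) ^ 2 + (A 2 2 - 1) ^ 2 + A 0 1 ^ 2 + A 0 2 ^ 2 +
      A 1 0 ^ 2 + A 1 2 ^ 2 + A 2 0 ^ 2 + A 2 1 ^ 2 = 0 := by linear_combination hs - 2 * ht
  have z : ∀ {x : ℝ}, x ^ 2 ≤ 0 → x = 0 := fun {x} h => by nlinarith [sq_nonneg x]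
  have q := fun i j => sq_nonneg (A i j)
  have q0 := sq_nonneg (A 0 0 - 1)
  have q1 := sq_nonneg (A 1 1 - 1)
  have q2 := sq_nonneg (A 2 2 - 1)
  fin_cases i <;> fin_cases j <;> simp only [Fin.zero_eta, Fin.mk_one, Fin.reduceFinMk,
    Fin.isValue, if_true, zero_ne_one, one_ne_zero, if_false, Fin.reduceEq]
  · have := z (x := A 0 0 - 1) (by linarith [q 0 1, q 0 2, q 1 0, q 1 2, q 2 0, q 2 1]); linarith
  · exact z (by linarith [q 0 1, q 0 2, q 1 0, q 1 2, q 2 0, q 2 1])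
  · exact z (by linarith [q 0 1, q 0 2, q 1 0, q 1 2, q 2 0, q 2 1])
  · exact z (by linarith [q 0 1, q 0 2, q 1 0, q 1 2, q 2 0, q 2 1])
  · have := z (x := A 1 1 - 1) (by linarith [q 0 1, q 0 2, q 1 0, q 1 2, q 2 0, q 2 1]); linarith
  · exact z (by linarith [q 0 1, q 0 2, q 1 0, q 1 2, q 2 0, q 2 1])
  · exact z (by linarith [q 0 1, q 0 2, q 1 0, q 1 2, q 2 0, q 2 1])
  · exact z (by linarith [q 0 1, q 0 2, q 1 0, q 1 2, q 2 0, q 2 1])
  · have := z (x := A 2 2 - 1) (by linarith [q 0 1, q 0 2, q 1 0, q 1 2, q 2 0, q 2 1]); linarith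

/-- the four term expression of the self-dual block -/
noncomputable def SD4 (r : Arr4) (i j : Fin 3) : ℝ :=
  (r 0 i.succ j.succ 0 + r 0 i.succ (j + 2).succ (j + 1).succ +
    r (i + 1).succ (i + 2).succ j.succ 0 +
    r (i + 1).succ (i + 2).succ (j + 2).succ (j + 1).succ) / 2

theorem sd4_eq {r : Arr4} (hr : r = einArr (Pm r) (Sm r)) (i j : Fin 3) : SD4 r i j = S4.Ab r i j := by
  generalize Pm r = P at hr
  generalize Sm r = S at hr
  subst hr
  unfold SD4 S4.Ab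
  fin_cases i <;> fin_cases j <;> simp [einArr, Pm, Sm, sk] <;> ring

/-! ### the manifold -/

noncomputable section

variable {E : Type*} [NormedAddCommGroup E] [NormedSpace ℝ E] [FiniteDimensional ℝ E]
  {M : Type*} [TopologicalSpace M] [ChartedSpace E M] [IsManifold 𝓘(ℝ, E) ∞ M] [T2Space M]
  [RiemannianBundle (fun x : M => TangentSpace 𝓘(ℝ, E) x)]
  [IsContMDiffRiemannianBundle 𝓘(ℝ, E) ∞ E (fun x : M => TangentSpace 𝓘(ℝ, E) x)]

variable {cov : CovariantDerivative 𝓘(ℝ, E) E (TangentSpace 𝓘(ℝ, E) : M → Type _)}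

theorem isVolForm_of {wf : (p : M) → TangentSpace 𝓘(ℝ, E) p [⋀^Fin 4]→ₗ[ℝ] ℝ}
    (h : Final.IsOrientation wf) : St.IsVolForm wf where
  smooth X hX := h.1 X hX
  unit p F hF := by
    rcases h.2 p F hF with h1 | h1
    · have : (wf p fun i => F i p) = 1 := h1
      rw [this]; norm_num
    · have : (wf p fun i => F i p) = -1 := h1
      rw [this]; norm_num

variable [PreconnectedSpace M] (h : IsLC cov) (hE : Module.finrank ℝ E = 4)

theorem einstein2_of {lam : ℝ} (hEin : St.IsEinstein cov lam) : (geo2Of h hE).Einstein lam :=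
  einstein_of h hE hEin

theorem secGe0_of (hs : Final.SecNonneg cov) : (geo2Of h hE).SecGe 0 := by
  intro p X Y
  have h1 := hs p X Y X.contMDiff Y.contMDiff
  rw [riem_eq h] at h1
  rw [zero_mul]
  exact h1

theorem rr_eq (F : Fin 4 → VF E M) (p : M) (i j k l : Fin 4) :
    St.Riem cov (F i) (F j) (F k) (F l) p = (geo2Of h hE).rr p F i j k l :=
  congrFun (riem_eq h (F i) (F j) (F k) (F l)) p

theorem sd_eq (hEin : (geo2Of h hE).Einstein 3) {F : Fin 4 → VF E M} {p : M}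
    (hF : (geo2Of h hE).ON p F) (hn : nA ((geo2Of h hE).rr p F) = 3) (i j : Fin 3) :
    Final.SD cov (fun i => (F i : St.Fld E M)) i j p = if i = j then 3 / 3 else 0 := by
  obtain ⟨h1, ⟨h2, h3⟩, h4, h5⟩ := frame_facts hEin hF
  have e : Final.SD cov (fun i => (F i : St.Fld E M)) i j p = SD4 ((geo2Of h hE).rr p F) i j := by
    unfold Final.SD SD4
    rw [rr_eq h hE, rr_eq h hE, rr_eq h hE, rr_eq h hE]
  rw [e, sd4_eq h1, block_id h2 hn]
  norm_num

variable {om : VF E M → VF E M → VF E M → VF E M → SF E M}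
  {wf : (p : M) → TangentSpace 𝓘(ℝ, E) p [⋀^Fin 4]→ₗ[ℝ] ℝ}

theorem om_val (hw : ∀ X Y Z W p, om X Y Z W p = wf p ![X p, Y p, Z p, W p])
    (F : Fin 4 → VF E M) (p : M) :
    (geo2Of h hE).ev p (om (F 0) (F 1) (F 2) (F 3)) = Final.val wf (fun i => (F i : St.Fld E M)) p := by
  refine (hw _ _ _ _ p).trans ?_
  unfold Final.val
  congr 1
  funext i
  fin_cases i <;> rfl

theorem halfFlat_pos (hEin : (geo2Of h hE).Einstein 3)
    (hw : ∀ X Y Z W p, om X Y Z W p = wf p ![X p, Y p, Z p, W p])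
    (hn : ∀ p F, Pos (geo2Of h hE) om p F → nA ((geo2Of h hE).rr p F) = 3) :
    Final.HalfFlat cov 3 wf 1 := by
  intro p F hF hv i j
  have hON : (geo2Of h hE).ON p (fun i => mkVF (F i) (hF i i).1) := fun i j => (hF i j).2
  have hP : Pos (geo2Of h hE) om p (fun i => mkVF (F i) (hF i i).1) :=
    ⟨hON, (om_val h hE hw (fun i => mkVF (F i) (hF i i).1) p).trans hv⟩
  exact sd_eq h hE hEin hON (hn p _ hP) i j

theorem halfFlat_neg (hEin : (geo2Of h hE).Einstein 3) (ho : Orient (geo2Of h hE) om)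
    (hw : ∀ X Y Z W p, om X Y Z W p = wf p ![X p, Y p, Z p, W p])
    (hm : ∀ p F, Pos (geo2Of h hE) om p F → nB ((geo2Of h hE).rr p F) = 3) :
    Final.HalfFlat cov 3 wf (-1) := by
  intro p F hF hv i j
  have hON : (geo2Of h hE).ON p (fun i => mkVF (F i) (hF i i).1) := fun i j => (hF i j).2
  set F' : Fin 4 → VF E M := fun i => mkVF (F i) (hF i i).1 with hF'
  have h1 : (geo2Of h hE).ev p (om (F' 0) (F' 1) (F' 2) (F' 3)) = -1 :=
    (om_val h hE hw F' p).trans hv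
  have hP : Pos (geo2Of h hE) om p (H56.refl F') := by
    refine ⟨refl_on hON, ?_⟩
    simp only [H56.refl, Fin.isValue, Matrix.cons_val_zero, Matrix.cons_val_one, Matrix.cons_val]
    rw [t4_neg1 ho.t4, map_neg, h1, neg_neg]
  have h2 := hm p _ hP
  rw [nB_refl] at h2
  exact sd_eq h hE hEin hON h2 i j

theorem locallyS2S2_of [CompactSpace M] [Nonempty M] (hEin : (geo2Of h hE).Einstein 3)
    (hK : (geo2Of h hE).SecGe 0)
    (ho : Orient (geo2Of h hE) om)
    (hn : ∀ p F, Pos (geo2Of h hE) om p F → nA ((geo2Of h hE).rr p F) = 9)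
    (hm : ∀ p F, Pos (geo2Of h hE) om p F → nB ((geo2Of h hE).rr p F) = 9) :
    Final.LocallyS2S2 cov 3 := by
  have hA : (geo2Of h hE).MinAt 0 := by
    intro p
    obtain ⟨F, hF⟩ := H56.exists_pos ho p
    exact exists_flat hEin hK hF.1 (hn p F hF) (hm p F hF)
  have e1 : (geomOf h hE).Einstein 3 := hEin
  have e2 : (geomOf h hE).SecGe 0 := hK
  have e3 : (geomOf h hE).MinAt 0 := hA
  have h3 : (0 : ℝ) < 3 := by norm_num
  refine ⟨fun p U X Y Z W hU hX hY hZ hW => ?_, fun p => ?_⟩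
  · exact (dRiem_eq h (mkVF U hU) (mkVF X hX) (mkVF Y hY) (mkVF Z hZ) (mkVF W hW) p).trans
      ((Geom.main h3 le_rfl e1 e2 e3).2 p (mkVF U hU) (mkVF X hX) (mkVF Y hY) (mkVF Z hZ)
        (mkVF W hW))
  · rcases Geom.curv_types h3 le_rfl e1 e2 e3 with ⟨h1, h2⟩ | ⟨h1, h2⟩ | ⟨h1, h2⟩
    · norm_num at h1
    · norm_num at h1
    · obtain ⟨F, hF, h4⟩ := h2 p
      refine ⟨fun i => F i, fun i j => ⟨(F i).contMDiff, hF i j⟩, fun X Y Z W hX hY hZ hW => ?_⟩
      have h5 := s2s2_full h4 (mkVF X hX) (mkVF Y hY) (mkVF Z hZ) (mkVF W hW)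
      exact (congrFun (riem_eq h (mkVF X hX) (mkVF Y hY) (mkVF Z hZ) (mkVF W hW)) p).trans h5

end

/-- What has to be proved in the formal calculus. -/
def Core : Prop :=
  ∀ {E : Type} [NormedAddCommGroup E] [NormedSpace ℝ E] [FiniteDimensional ℝ E]
    {M : Type} [TopologicalSpace M] [ChartedSpace E M] [IsManifold 𝓘(ℝ, E) ∞ M] [T2Space M]
    [CompactSpace M] [ConnectedSpace M]
    [RiemannianBundle (fun x : M => TangentSpace 𝓘(ℝ, E) x)]
    [IsContMDiffRiemannianBundle 𝓘(ℝ, E) ∞ E (fun x : M => TangentSpace 𝓘(ℝ, E) x)]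
    {cov : CovariantDerivative 𝓘(ℝ, E) E (TangentSpace 𝓘(ℝ, E) : M → Type _)}
    (h : IsLC cov) (hE : Module.finrank ℝ E = 4) (om : VF E M → VF E M → VF E M → VF E M → SF E M)
    (n m : SF E M), (geo2Of h hE).Einstein 3 → (geo2Of h hE).SecGe 0 →
    Orient (geo2Of h hE) om →
    (∀ p F, Pos (geo2Of h hE) om p F →
      6 * (geo2Of h hE).ev p n + 3 = nA ((geo2Of h hE).rr p F)) →
    (∀ p F, Pos (geo2Of h hE) om p F →
      6 * (geo2Of h hE).ev p m + 3 = nB ((geo2Of h hE).rr p F)) →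
    NFun (geo2Of h hE) n → NFun (geo2Of h hE) m →
    (∀ p, (geo2Of h hE).ev p n = 0) ∨ (∀ p, (geo2Of h hE).ev p m = 0) ∨
      (∀ p, (geo2Of h hE).ev p n = 1 ∧ (geo2Of h hE).ev p m = 1)

theorem target3_of_core (hc : Core) : Target3 := by
  intro E _ _ _ hE M _ _ _ _ _ _ m hb cov hcov hEin hsec wf hwf
  have h := isLC_of hcov
  have e1 := einstein2_of h hE hEin
  have e2 := secGe0_of h hE hsec
  obtain ⟨om, ho, hw⟩ := orient_of h hE (isVolForm_of hwf)
  obtain ⟨n, m, hn, hm, hN, hM⟩ := exists_nm e1 e2 ho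
  rcases hc h hE om n m e1 e2 ho hn hm hN hM with h1 | h1 | h1
  · refine Or.inl (halfFlat_pos h hE e1 hw fun p F hF => ?_)
    rw [← hn p F hF, h1 p]; norm_num
  · refine Or.inr (Or.inl (halfFlat_neg h hE e1 ho hw fun p F hF => ?_))
    rw [← hm p F hF, h1 p]; norm_num
  · refine Or.inr (Or.inr (locallyS2S2_of h hE e1 e2 ho (fun p F hF => ?_) fun p F hF => ?_))
    · rw [← hn p F hF, (h1 p).1]; norm_num
    · rw [← hm p F hF, (h1 p).2]; norm_num

theorem target_of_core (hc : Core) : Final.Target := target_of_target3 (target3_of_core hc)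

end Vale.Agent.P211.H210
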