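import Vale.Agent.P211.H210.Syl
import Vale.Agent.P211.H237.Psd4

set_option linter.all false

/-!
P211 (helper210): positive semidefiniteness of a 4x4 matrix of polynomials on a cell by a
fraction-free elimination in every control matrix (signed integers as residues modulo `Z`).
-/

namespace Vale.Agent.P211.H237

open MvPolynomial

/-! ### signed residues -/

/-- `r` represents the integer `z` modulo `Z` -/
def SR (Z r : ℕ) (z : ℤ) : Prop := r < Z ∧ (Z : ℤ) ∣ (r : ℤ) - z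

theorem SR.eq {Z H r : ℕ} {z : ℤ} (hZ : Z = 2 * H) (h : SR Z r z) (hb : |z| < H) (hr : r < H) :
    z = r := by
  obtain ⟨-, k, hk⟩ := h
  have h1 := abs_lt.mp hb
  have hZ' : (Z : ℤ) = 2 * H := by exact_mod_cast hZ
  have hr' : (r : ℤ) < H := by exact_mod_cast hr
  have hr0 : (0 : ℤ) ≤ r := Int.natCast_nonneg r
  have k1 : k < 1 := by
    by_contra hc
    push Not at hc
    have : (Z : ℤ) * 1 ≤ Z * k := mul_le_mul_of_nonneg_left hc (by omega)
    omega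
  have k2 : -1 < k := by
    by_contra hc
    push Not at hc
    have : (Z : ℤ) * k ≤ Z * (-1) := mul_le_mul_of_nonneg_left hc (by omega)
    omega
  have k0 : k = 0 := by omega
  rw [k0] at hk
  omega

/-- `a b - c d` -/
def msb (Z a b c d : ℕ) : ℕ := Nat.mod (Nat.add (Nat.mul a b) (Nat.mul (Nat.sub Z c) d)) Z

theorem SR.msb {Z a b c d : ℕ} {x y u v : ℤ} (ha : SR Z a x) (hb : SR Z b y) (hc : SR Z c u)
    (hd : SR Z d v) : SR Z (msb Z a b c d) (x * y - u * v) := by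
  have hZ : 0 < Z := lt_of_le_of_lt (Nat.zero_le _) ha.1
  refine ⟨Nat.mod_lt _ hZ, ?_⟩
  obtain ⟨-, ka, ea⟩ := ha
  obtain ⟨-, kb, eb⟩ := hb
  obtain ⟨hc1, kc, ec⟩ := hc
  obtain ⟨-, kd, ed⟩ := hd
  have e0 : ((H237.msb Z a b c d : ℕ) : ℤ) = ((a * b + (Z - c) * d : ℕ) : ℤ) % Z := by
    unfold H237.msb
    exact Int.natCast_mod _ _
  have e1 : ((a * b + (Z - c) * d : ℕ) : ℤ) = (a : ℤ) * b + ((Z : ℤ) - c) * d := by
    rw [Nat.cast_add, Nat.cast_mul, Nat.cast_mul, Nat.cast_sub hc1.le]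
  have e2 := Int.emod_add_mul_ediv ((a * b + (Z - c) * d : ℕ) : ℤ) Z
  refine ⟨(ka * b + x * kb) + d - (kc * d + u * kd) -
    ((a * b + (Z - c) * d : ℕ) : ℤ) / Z, ?_⟩
  have ha' : (a : ℤ) = x + Z * ka := by linarith
  have hb' : (b : ℤ) = y + Z * kb := by linarith
  have hc' : (c : ℤ) = u + Z * kc := by linarith
  have hd' : (d : ℤ) = v + Z * kd := by linarith
  have e3 : ((H237.msb Z a b c d : ℕ) : ℤ) =
      ((a * b + (Z - c) * d : ℕ) : ℤ) - Z * (((a * b + (Z - c) * d : ℕ) : ℤ) / Z) := by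
    rw [e0]; linarith
  rw [e3, e1]
  rw [ha', hb', hc', hd']
  ring

theorem msb_bd {x y u v m : ℤ} (h1 : |x| ≤ m) (h2 : |y| ≤ m) (h3 : |u| ≤ m) (h4 : |v| ≤ m) :
    |x * y - u * v| ≤ 2 * m ^ 2 := by
  have hm : 0 ≤ m := (abs_nonneg _).trans h1
  have e1 : |x * y| ≤ m * m := by
    rw [abs_mul]; exact mul_le_mul h1 h2 (abs_nonneg _) hm
  have e2 : |u * v| ≤ m * m := by
    rw [abs_mul]; exact mul_le_mul h3 h4 (abs_nonneg _) hm
  have e3 := abs_sub (x * y) (u * v)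
  nlinarith

/-! ### the tests -/

/-- 2x2 -/
noncomputable def ps2 (Z H a b c : ℕ) : Bool :=
  Bool.rec (Bool.rec false (Nat.ble (Nat.succ (msb Z a c b b)) H) (Nat.ble (Nat.succ a) H))
    (Bool.rec false (Nat.ble (Nat.succ c) H) (Nat.beq b 0)) (Nat.beq a 0)

/-- 3x3: `11 12 13 22 23 33` -/
noncomputable def ps3 (Z H a b c d e f : ℕ) : Bool :=
  Bool.rec (Bool.rec false (ps2 Z H (msb Z a d b b) (msb Z a e b c) (msb Z a f c c))
      (Nat.ble (Nat.succ a) H))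
    (Bool.rec false (ps2 Z H d e f) (Nat.beq (Nat.add b c) 0)) (Nat.beq a 0)

/-- 4x4: `11 12 13 14 22 23 24 33 34 44` -/
noncomputable def ps4 (Z H a b c d e f g i j k : ℕ) : Bool :=
  Bool.rec (Bool.rec false (ps3 Z H (msb Z a e b b) (msb Z a f b c) (msb Z a g b d)
      (msb Z a i c c) (msb Z a j c d) (msb Z a k d d)) (Nat.ble (Nat.succ a) H))
    (Bool.rec false (ps3 Z H e f g i j k) (Nat.beq (Nat.add (Nat.add b c) d) 0)) (Nat.beq a 0)

theorem brec {x : Bool} {p q : Bool} (h : (Bool.rec p q x : Bool) = true) :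
    (x = false ∧ p = true) ∨ (x = true ∧ q = true) := by
  cases x
  · exact Or.inl ⟨rfl, h⟩
  · exact Or.inr ⟨rfl, h⟩

theorem brec' {x : Bool} {q : Bool} (h : (Bool.rec false q x : Bool) = true) :
    x = true ∧ q = true := by
  rcases brec h with ⟨-, h2⟩ | h2
  · exact absurd h2 (by simp)
  · exact h2

theorem pos_of {Z H a : ℕ} {x : ℤ} (hZ : Z = 2 * H) (ha : SR Z a x) (hb : |x| < H)
    (h0 : Nat.beq a 0 = false) (h1 : Nat.ble (Nat.succ a) H = true) : 0 < x := by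
  have h2 : a < H := Nat.le_of_ble_eq_true h1
  rw [ha.eq hZ hb h2]
  have h3 : a ≠ 0 := Nat.ne_of_beq_eq_false h0
  exact_mod_cast Nat.pos_of_ne_zero h3

theorem nn_of {Z H a : ℕ} {x : ℤ} (hZ : Z = 2 * H) (ha : SR Z a x) (hb : |x| < H)
    (h1 : Nat.ble (Nat.succ a) H = true) : 0 ≤ x := by
  have h2 : a < H := Nat.le_of_ble_eq_true h1
  rw [ha.eq hZ hb h2]
  exact Int.natCast_nonneg a

theorem zero_of {Z H a : ℕ} {x : ℤ} (hZ : Z = 2 * H) (ha : SR Z a x) (hb : |x| < H)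
    (h0 : a = 0) : x = 0 := by
  have h2 : a < H := by
    rw [h0]
    have : (0 : ℤ) < H := lt_of_le_of_lt (abs_nonneg _) hb
    exact_mod_cast this
  rw [ha.eq hZ hb h2, h0]; rfl

theorem ps2_sound {Z H a b c : ℕ} {x y z m : ℤ} (hZ : Z = 2 * H) (ha : SR Z a x) (hb : SR Z b y)
    (hc : SR Z c z) (hx : |x| ≤ m) (hy : |y| ≤ m) (hz : |z| ≤ m) (hm : 1 ≤ m)
    (hH : 2 * m ^ 2 < H) (h : ps2 Z H a b c = true) (X Y : ℝ) :
    0 ≤ (x : ℝ) * X ^ 2 + 2 * y * X * Y + z * Y ^ 2 := by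
  have hmH : m < H := by nlinarith
  have bd : ∀ w : ℤ, |w| ≤ m → |w| < H := fun w hw => hw.trans_lt hmH
  rcases brec h with ⟨h0, h1⟩ | ⟨h0, h1⟩
  · obtain ⟨h2, h3⟩ := brec' h1
    have px := pos_of hZ ha (bd x hx) h0 h2
    have pd := nn_of hZ (ha.msb hc hb hb) ((msb_bd hx hz hy hy).trans_lt hH) h3
    have px' : (0 : ℝ) < x := by exact_mod_cast px
    have pd' : (0 : ℝ) ≤ (x : ℝ) * z - y * y := by exact_mod_cast pd
    have key : (x : ℝ) * ((x : ℝ) * X ^ 2 + 2 * y * X * Y + z * Y ^ 2) =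
      (x * X + y * Y) ^ 2 + ((x : ℝ) * z - y * y) * Y ^ 2 := by ring
    have : 0 ≤ (x : ℝ) * ((x : ℝ) * X ^ 2 + 2 * y * X * Y + z * Y ^ 2) := by
      rw [key]; positivity
    exact nonneg_of_mul_nonneg_right this px'
  · obtain ⟨h2, h3⟩ := brec' h1
    have ex := zero_of hZ ha (bd x hx) (Nat.eq_of_beq_eq_true h0)
    have ey := zero_of hZ hb (bd y hy) (Nat.eq_of_beq_eq_true h2)
    have pz := nn_of hZ hc (bd z hz) h3
    have pz' : (0 : ℝ) ≤ z := by exact_mod_cast pz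
    rw [ex, ey]
    push_cast
    have : 0 ≤ (z : ℝ) * Y ^ 2 := by positivity
    linarith

theorem ps3_sound {Z H a b c d e f : ℕ} {x1 x2 x3 x4 x5 x6 m : ℤ} (hZ : Z = 2 * H)
    (ha : SR Z a x1) (hb : SR Z b x2) (hc : SR Z c x3) (hd : SR Z d x4) (he : SR Z e x5)
    (hf : SR Z f x6) (b1 : |x1| ≤ m) (b2 : |x2| ≤ m) (b3 : |x3| ≤ m) (b4 : |x4| ≤ m)
    (b5 : |x5| ≤ m) (b6 : |x6| ≤ m) (hm : 1 ≤ m) (hH : 2 * (2 * m ^ 2) ^ 2 < H)
    (h : ps3 Z H a b c d e f = true) (X Y W : ℝ) :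
    0 ≤ (x1 : ℝ) * X ^ 2 + 2 * x2 * X * Y + 2 * x3 * X * W + x4 * Y ^ 2 + 2 * x5 * Y * W
      + x6 * W ^ 2 := by
  have hm2 : m ≤ 2 * m ^ 2 := by nlinarith
  have h2m : 1 ≤ 2 * m ^ 2 := hm.trans hm2
  have hmH : m < H := by nlinarith
  have hH2 : 2 * m ^ 2 < (H : ℤ) := by nlinarith
  have bd : ∀ w : ℤ, |w| ≤ m → |w| < H := fun w hw => hw.trans_lt hmH
  rcases brec h with ⟨h0, h1⟩ | ⟨h0, h1⟩
  · obtain ⟨h2, h3⟩ := brec' h1
    have px := pos_of hZ ha (bd x1 b1) h0 h2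
    have px' : (0 : ℝ) < x1 := by exact_mod_cast px
    have q := ps2_sound hZ (ha.msb hd hb hb) (ha.msb he hb hc) (ha.msb hf hc hc)
      (msb_bd b1 b4 b2 b2) (msb_bd b1 b5 b2 b3) (msb_bd b1 b6 b3 b3) h2m hH h3 Y W
    push_cast at q
    have key : (x1 : ℝ) * ((x1 : ℝ) * X ^ 2 + 2 * x2 * X * Y + 2 * x3 * X * W + x4 * Y ^ 2
      + 2 * x5 * Y * W + x6 * W ^ 2) = (x1 * X + x2 * Y + x3 * W) ^ 2 +
      (((x1 : ℝ) * x4 - x2 * x2) * Y ^ 2 + 2 * ((x1 : ℝ) * x5 - x2 * x3) * Y * W +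
        ((x1 : ℝ) * x6 - x3 * x3) * W ^ 2) := by ring
    have : 0 ≤ (x1 : ℝ) * ((x1 : ℝ) * X ^ 2 + 2 * x2 * X * Y + 2 * x3 * X * W + x4 * Y ^ 2
      + 2 * x5 * Y * W + x6 * W ^ 2) := by
      rw [key]; exact add_nonneg (sq_nonneg _) q
    exact nonneg_of_mul_nonneg_right this px'
  · obtain ⟨h2, h3⟩ := brec' h1
    have e0 : b + c = 0 := Nat.eq_of_beq_eq_true h2
    have ex := zero_of hZ ha (bd x1 b1) (Nat.eq_of_beq_eq_true h0)
    have ey := zero_of hZ hb (bd x2 b2) (by omega)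
    have ez := zero_of hZ hc (bd x3 b3) (by omega)
    have q := ps2_sound hZ hd he hf b4 b5 b6 hm hH2 h3 Y W
    rw [ex, ey, ez]
    push_cast
    linarith

theorem ps4_sound {Z H a b c d e f g i j k : ℕ} {x1 x2 x3 x4 x5 x6 x7 x8 x9 x10 m : ℤ}
    (hZ : Z = 2 * H)
    (ha : SR Z a x1) (hb : SR Z b x2) (hc : SR Z c x3) (hd : SR Z d x4) (he : SR Z e x5)
    (hf : SR Z f x6) (hg : SR Z g x7) (hi : SR Z i x8) (hj : SR Z j x9) (hk : SR Z k x10)
    (b1 : |x1| ≤ m) (b2 : |x2| ≤ m) (b3 : |x3| ≤ m) (b4 : |x4| ≤ m)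
    (b5 : |x5| ≤ m) (b6 : |x6| ≤ m) (b7 : |x7| ≤ m) (b8 : |x8| ≤ m) (b9 : |x9| ≤ m)
    (b10 : |x10| ≤ m) (hm : 1 ≤ m) (hH : 2 * (2 * (2 * m ^ 2) ^ 2) ^ 2 < H)
    (h : ps4 Z H a b c d e f g i j k = true) (X Y W V : ℝ) :
    0 ≤ form4 (x1 : ℝ) x2 x3 x4 x5 x6 x7 x8 x9 x10 X Y W V := by
  have hm2 : m ≤ 2 * m ^ 2 := by nlinarith
  have h2m : 1 ≤ 2 * m ^ 2 := hm.trans hm2
  have hm4 : 2 * m ^ 2 ≤ 2 * (2 * m ^ 2) ^ 2 := by nlinarith
  have h4m : 1 ≤ 2 * (2 * m ^ 2) ^ 2 := h2m.trans hm4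
  have hH2 : 2 * (2 * m ^ 2) ^ 2 < (H : ℤ) := by nlinarith
  have hmH : m < H := by linarith
  have bd : ∀ w : ℤ, |w| ≤ m → |w| < H := fun w hw => hw.trans_lt hmH
  unfold form4
  rcases brec h with ⟨h0, h1⟩ | ⟨h0, h1⟩
  · obtain ⟨h2, h3⟩ := brec' h1
    have px := pos_of hZ ha (bd x1 b1) h0 h2
    have px' : (0 : ℝ) < x1 := by exact_mod_cast px
    have q := ps3_sound hZ (ha.msb he hb hb) (ha.msb hf hb hc) (ha.msb hg hb hd)
      (ha.msb hi hc hc) (ha.msb hj hc hd) (ha.msb hk hd hd)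
      (msb_bd b1 b5 b2 b2) (msb_bd b1 b6 b2 b3) (msb_bd b1 b7 b2 b4) (msb_bd b1 b8 b3 b3)
      (msb_bd b1 b9 b3 b4) (msb_bd b1 b10 b4 b4) h2m hH h3 Y W V
    push_cast at q
    have key : (x1 : ℝ) * ((x1 : ℝ) * X ^ 2 + x5 * Y ^ 2 + x8 * W ^ 2 + x10 * V ^ 2
      + 2 * x2 * X * Y + 2 * x3 * X * W + 2 * x4 * X * V + 2 * x6 * Y * W + 2 * x7 * Y * V
      + 2 * x9 * W * V) = (x1 * X + x2 * Y + x3 * W + x4 * V) ^ 2 +
      (((x1 : ℝ) * x5 - x2 * x2) * Y ^ 2 + 2 * ((x1 : ℝ) * x6 - x2 * x3) * Y * W +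
        2 * ((x1 : ℝ) * x7 - x2 * x4) * Y * V + ((x1 : ℝ) * x8 - x3 * x3) * W ^ 2 +
        2 * ((x1 : ℝ) * x9 - x3 * x4) * W * V + ((x1 : ℝ) * x10 - x4 * x4) * V ^ 2) := by ring
    have : 0 ≤ (x1 : ℝ) * ((x1 : ℝ) * X ^ 2 + x5 * Y ^ 2 + x8 * W ^ 2 + x10 * V ^ 2
      + 2 * x2 * X * Y + 2 * x3 * X * W + 2 * x4 * X * V + 2 * x6 * Y * W + 2 * x7 * Y * V
      + 2 * x9 * W * V) := by
      rw [key]; exact add_nonneg (sq_nonneg _) q
    exact nonneg_of_mul_nonneg_right this px'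
  · obtain ⟨h2, h3⟩ := brec' h1
    have e0 : b + c + d = 0 := Nat.eq_of_beq_eq_true h2
    have ex := zero_of hZ ha (bd x1 b1) (Nat.eq_of_beq_eq_true h0)
    have ey := zero_of hZ hb (bd x2 b2) (by omega)
    have ez := zero_of hZ hc (bd x3 b3) (by omega)
    have ew := zero_of hZ hd (bd x4 b4) (by omega)
    have q := ps3_sound hZ he hf hg hi hj hk b5 b6 b7 b8 b9 b10 hm hH2 h3 Y W V
    rw [ex, ey, ez, ew]
    push_cast
    linarith

/-! ### the loop over the digits -/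

/-- evaluate `n` before calling `k` -/
noncomputable def frc (n : ℕ) (k : ℕ → Bool) : Bool :=
  Nat.rec (motive := fun _ => Bool) (k 0) (fun m _ => k (Nat.succ m)) n

theorem frc_eq (n : ℕ) (k : ℕ → Bool) : frc n k = k n := by cases n <;> rfl

/-- the signed residue of digit number `i`; `hc = Z - h`, `B = 2^K` -/
def sdg (Z hc K B v i : ℕ) : ℕ :=
  Nat.mod (Nat.add (Nat.mod (Nat.shiftRight v (Nat.mul K i)) B) hc) Z

/-- the test of the control matrix number `i` -/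
noncomputable def tst4 (Z H hc K B i a b c d e f g x y z : ℕ) : Bool :=
  ps4 Z H (sdg Z hc K B a i) (sdg Z hc K B b i) (sdg Z hc K B c i) (sdg Z hc K B d i)
    (sdg Z hc K B e i) (sdg Z hc K B f i) (sdg Z hc K B g i) (sdg Z hc K B x i)
    (sdg Z hc K B y i) (sdg Z hc K B z i)

/-- all digits below `n` -/
noncomputable def allR (n : ℕ) (p : ℕ → Bool) : Bool :=
  Nat.rec (motive := fun _ => Bool) true (fun i ih => Bool.rec false ih (p i)) n

theorem allR_sound (p : ℕ → Bool) : ∀ n, allR n p = true → ∀ i < n, p i = true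
  | 0, _, i, hi => absurd hi (Nat.not_lt_zero _)
  | n + 1, h, i, hi => by
    have h' : (Bool.rec false (allR n p) (p n) : Bool) = true := h
    obtain ⟨h1, h2⟩ := brec' h'
    rcases Nat.lt_succ_iff_lt_or_eq.mp hi with h3 | h3
    · exact allR_sound p n h2 i h3
    · rw [h3]; exact h1

/-- the check of all control matrices. `W, m` = modulus and mask of the packed numbers, `K` = bits
per digit, `B = 2^K`, `Z` = modulus of the signed residues, `H = Z/2`, `hc = Z - 2^(K-1)`,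
`n` = number of digits. -/
noncomputable def syl4 (W m K B Z H hc n : ℕ) (q : Q4) : Bool :=
  Q4.rec (motive := fun _ => Bool) (fun a b c d e f g x y z =>
    frc (Nat.mod (Nat.add a m) W) fun a => frc (Nat.mod (Nat.add b m) W) fun b =>
    frc (Nat.mod (Nat.add c m) W) fun c => frc (Nat.mod (Nat.add d m) W) fun d =>
    frc (Nat.mod (Nat.add e m) W) fun e => frc (Nat.mod (Nat.add f m) W) fun f =>
    frc (Nat.mod (Nat.add g m) W) fun g => frc (Nat.mod (Nat.add x m) W) fun x =>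
    frc (Nat.mod (Nat.add y m) W) fun y => frc (Nat.mod (Nat.add z m) W) fun z =>
    allR n fun i => tst4 Z H hc K B i a b c d e f g x y z) q

variable {F : Fam} {c : CellP} {C : Ctx F c}

/-- modulus of the signed residues -/
def Fam.Zs (F : Fam) : ℕ := 2 ^ (8 * F.β + 9)
def Fam.Hs (F : Fam) : ℕ := 2 ^ (8 * F.β + 8)

theorem sdg_spec (F : Fam) (v i : ℕ) :
    SR F.Zs (sdg F.Zs (F.Zs - 2 ^ F.β) (F.β + 1) (2 ^ (F.β + 1)) v i)
      ((dgs (F.β + 1) v i : ℤ) - 2 ^ F.β) ∧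
    |(dgs (F.β + 1) v i : ℤ) - 2 ^ F.β| ≤ 2 ^ F.β := by
  have hZ : 0 < F.Zs := Nat.two_pow_pos _
  have hle : 2 ^ F.β ≤ F.Zs := Nat.pow_le_pow_right (by norm_num) (by omega)
  have hd : dgs (F.β + 1) v i < 2 ^ (F.β + 1) := Nat.mod_lt _ (Nat.two_pow_pos _)
  refine ⟨⟨Nat.mod_lt _ hZ, ?_⟩, ?_⟩
  · have e1 : sdg F.Zs (F.Zs - 2 ^ F.β) (F.β + 1) (2 ^ (F.β + 1)) v i =
        (dgs (F.β + 1) v i + (F.Zs - 2 ^ F.β)) % F.Zs := by
      unfold sdg dgs
      have : Nat.shiftRight v (Nat.mul (F.β + 1) i) = v / 2 ^ ((F.β + 1) * i) :=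
        Nat.shiftRight_eq_div_pow v ((F.β + 1) * i)
      rw [this]; rfl
    rw [e1]
    have e2 := Int.emod_add_mul_ediv ((dgs (F.β + 1) v i + (F.Zs - 2 ^ F.β) : ℕ) : ℤ) F.Zs
    have e3 : (((dgs (F.β + 1) v i + (F.Zs - 2 ^ F.β)) % F.Zs : ℕ) : ℤ) =
      ((dgs (F.β + 1) v i + (F.Zs - 2 ^ F.β) : ℕ) : ℤ) % F.Zs := Int.natCast_mod _ _
    have e4 : ((dgs (F.β + 1) v i + (F.Zs - 2 ^ F.β) : ℕ) : ℤ) =
      (dgs (F.β + 1) v i : ℤ) + ((F.Zs : ℤ) - 2 ^ F.β) := by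
      rw [Nat.cast_add, Nat.cast_sub hle]; push_cast; rfl
    refine ⟨1 - ((dgs (F.β + 1) v i + (F.Zs - 2 ^ F.β) : ℕ) : ℤ) / F.Zs, ?_⟩
    rw [e3]
    rw [e4] at e2 ⊢
    linarith
  · rw [abs_le]
    have h1 : ((dgs (F.β + 1) v i : ℕ) : ℤ) < 2 ^ (F.β + 1) := by exact_mod_cast hd
    have h2 : (0 : ℤ) ≤ (dgs (F.β + 1) v i : ℤ) := Int.natCast_nonneg _
    have h3 : (2 : ℤ) ^ (F.β + 1) = 2 * 2 ^ F.β := by rw [pow_succ]; ring
    constructor <;> linarith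

theorem syl4_sound {q : Q4} {A11 A12 A13 A14 A22 A23 A24 A33 A34 A44 : MP} {n : ℕ}
    (h11 : Rep C q.a11 A11 n) (h12 : Rep C q.a12 A12 n) (h13 : Rep C q.a13 A13 n)
    (h14 : Rep C q.a14 A14 n) (h22 : Rep C q.a22 A22 n) (h23 : Rep C q.a23 A23 n)
    (h24 : Rep C q.a24 A24 n) (h33 : Rep C q.a33 A33 n) (h34 : Rep C q.a34 A34 n)
    (h44 : Rep C q.a44 A44 n)
    (hn : n * (F.nx ^ F.D * F.ny ^ F.E) < 2 ^ F.β)
    (h : syl4 F.W F.msk (F.β + 1) (2 ^ (F.β + 1)) F.Zs F.Hs (F.Zs - 2 ^ F.β)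
      ((F.D + 1) * (F.E + 1)) q = true)
    (x y : ℝ) (hxy : c.In x y) (z1 z2 z3 z4 : ℝ) :
    0 ≤ form4 (rev x y A11) (rev x y A12) (rev x y A13) (rev x y A14) (rev x y A22)
      (rev x y A23) (rev x y A24) (rev x y A33) (rev x y A34) (rev x y A44) z1 z2 z3 z4 := by
  obtain ⟨a11, a12, a13, a14, a22, a23, a24, a33, a34, a44⟩ := q
  simp only at h11 h12 h13 h14 h22 h23 h24 h33 h34 h44
  unfold syl4 at h
  simp only [frc_eq] at h
  have hall := allR_sound _ _ h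
  -- positivity of every control form
  have hctl : ∀ i < (F.D + 1) * (F.E + 1), ∀ X Y W V : ℝ,
      0 ≤ form4 ((dgs (F.β + 1) ((a11 + F.msk) % F.W) i : ℝ) - 2 ^ F.β)
        ((dgs (F.β + 1) ((a12 + F.msk) % F.W) i : ℝ) - 2 ^ F.β)
        ((dgs (F.β + 1) ((a13 + F.msk) % F.W) i : ℝ) - 2 ^ F.β)
        ((dgs (F.β + 1) ((a14 + F.msk) % F.W) i : ℝ) - 2 ^ F.β)
        ((dgs (F.β + 1) ((a22 + F.msk) % F.W) i : ℝ) - 2 ^ F.β)
        ((dgs (F.β + 1) ((a23 + F.msk) % F.W) i : ℝ) - 2 ^ F.β)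
        ((dgs (F.β + 1) ((a24 + F.msk) % F.W) i : ℝ) - 2 ^ F.β)
        ((dgs (F.β + 1) ((a33 + F.msk) % F.W) i : ℝ) - 2 ^ F.β)
        ((dgs (F.β + 1) ((a34 + F.msk) % F.W) i : ℝ) - 2 ^ F.β)
        ((dgs (F.β + 1) ((a44 + F.msk) % F.W) i : ℝ) - 2 ^ F.β) X Y W V := by
    intro i hi X Y W V
    have h1 := hall i hi
    unfold tst4 at h1
    have s1 := sdg_spec F ((a11 + F.msk) % F.W) i
    have s2 := sdg_spec F ((a12 + F.msk) % F.W) i
    have s3 := sdg_spec F ((a13 + F.msk) % F.W) i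
    have s4 := sdg_spec F ((a14 + F.msk) % F.W) i
    have s5 := sdg_spec F ((a22 + F.msk) % F.W) i
    have s6 := sdg_spec F ((a23 + F.msk) % F.W) i
    have s7 := sdg_spec F ((a24 + F.msk) % F.W) i
    have s8 := sdg_spec F ((a33 + F.msk) % F.W) i
    have s9 := sdg_spec F ((a34 + F.msk) % F.W) i
    have s10 := sdg_spec F ((a44 + F.msk) % F.W) i
    have hZ : F.Zs = 2 * F.Hs := by
      unfold Fam.Zs Fam.Hs
      rw [show 8 * F.β + 9 = (8 * F.β + 8) + 1 from rfl, pow_succ]; ring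
    have hm : (1 : ℤ) ≤ 2 ^ F.β := one_le_pow₀ (by norm_num)
    have hH : 2 * (2 * (2 * ((2 : ℤ) ^ F.β) ^ 2) ^ 2) ^ 2 < (F.Hs : ℤ) := by
      unfold Fam.Hs
      push_cast
      have e1 : (2 : ℤ) ^ (8 * F.β + 8) = 256 * ((2 : ℤ) ^ F.β) ^ 8 := by
        rw [pow_add, Nat.mul_comm 8 F.β, pow_mul]; norm_num; ring
      rw [e1]
      have : (0 : ℤ) < ((2 : ℤ) ^ F.β) ^ 8 := by positivity
      nlinarith
    have q := ps4_sound hZ s1.1 s2.1 s3.1 s4.1 s5.1 s6.1 s7.1 s8.1 s9.1 s10.1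
      s1.2 s2.2 s3.2 s4.2 s5.2 s6.2 s7.2 s8.2 s9.2 s10.2 hm hH h1 X Y W V
    push_cast at q
    exact q
  -- half open cell
  have half : ∀ x y : ℝ, (c.xa : ℝ) ≤ c.xq * x → c.xq * x < c.xb → (c.ya : ℝ) ≤ c.yq * y →
      c.yq * y < c.yb → 0 ≤ form4 (rev x y A11) (rev x y A12) (rev x y A13) (rev x y A14)
      (rev x y A22) (rev x y A23) (rev x y A24) (rev x y A33) (rev x y A34) (rev x y A44)
      z1 z2 z3 z4 := by
    intro x y h1 h2 h3 h4
    have r1 := h11.expand hn x y h2 h4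
    have r2 := h12.expand hn x y h2 h4
    have r3 := h13.expand hn x y h2 h4
    have r4 := h14.expand hn x y h2 h4
    have r5 := h22.expand hn x y h2 h4
    have r6 := h23.expand hn x y h2 h4
    have r7 := h24.expand hn x y h2 h4
    have r8 := h33.expand hn x y h2 h4
    have r9 := h34.expand hn x y h2 h4
    have r10 := h44.expand hn x y h2 h4
    have hq : (0 : ℝ) < c.xb - c.xq * x := by linarith
    have hq' : (0 : ℝ) < c.yb - c.yq * y := by linarith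
    have ht0 : 0 ≤ tt c x := div_nonneg (by linarith) hq.le
    have hr0 : 0 ≤ rr' c y := div_nonneg (by linarith) hq'.le
    have hxq : (0 : ℝ) < c.xq := by exact_mod_cast C.hxq
    have hyq : (0 : ℝ) < c.yq := by exact_mod_cast C.hyq
    have hpos : 0 < pos' F c x y := by unfold pos'; positivity
    have e1 : pos' F c x y * form4 (rev x y A11) (rev x y A12) (rev x y A13) (rev x y A14)
      (rev x y A22) (rev x y A23) (rev x y A24) (rev x y A33) (rev x y A34) (rev x y A44)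
      z1 z2 z3 z4 =
      (pos' F c x y * rev x y A11) * z1 ^ 2 + (pos' F c x y * rev x y A22) * z2 ^ 2
      + (pos' F c x y * rev x y A33) * z3 ^ 2 + (pos' F c x y * rev x y A44) * z4 ^ 2
      + (pos' F c x y * rev x y A12) * (2 * z1 * z2)
      + (pos' F c x y * rev x y A13) * (2 * z1 * z3)
      + (pos' F c x y * rev x y A14) * (2 * z1 * z4)
      + (pos' F c x y * rev x y A23) * (2 * z2 * z3)
      + (pos' F c x y * rev x y A24) * (2 * z2 * z4)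
      + (pos' F c x y * rev x y A34) * (2 * z3 * z4) := by
      unfold form4; ring
    have hnn : 0 ≤ pos' F c x y * form4 (rev x y A11) (rev x y A12) (rev x y A13) (rev x y A14)
      (rev x y A22) (rev x y A23) (rev x y A24) (rev x y A33) (rev x y A34) (rev x y A44)
      z1 z2 z3 z4 := by
      rw [e1, r1, r2, r3, r4, r5, r6, r7, r8, r9, r10]
      simp only [Finset.sum_mul, ← Finset.sum_add_distrib]
      refine Finset.sum_nonneg fun j hj => Finset.sum_nonneg fun i hi => ?_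
      have hlt : (F.D + 1) * j + i < (F.D + 1) * (F.E + 1) := by
        have hj' := Finset.mem_range.mp hj
        have hi' := Finset.mem_range.mp hi
        calc (F.D + 1) * j + i < (F.D + 1) * j + (F.D + 1) := by omega
          _ = (F.D + 1) * (j + 1) := by ring
          _ ≤ (F.D + 1) * (F.E + 1) := Nat.mul_le_mul_left _ hj'
      have q := hctl _ hlt z1 z2 z3 z4
      have hp : 0 ≤ tt c x ^ i * rr' c y ^ j := by positivity
      refine (mul_nonneg q hp).trans (le_of_eq ?_)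
      unfold form4
      ring
    exact nonneg_of_mul_nonneg_right hnn hpos
  refine nonneg_closed C (fun z => form4 (rev z.1 z.2 A11) (rev z.1 z.2 A12) (rev z.1 z.2 A13)
    (rev z.1 z.2 A14) (rev z.1 z.2 A22) (rev z.1 z.2 A23) (rev z.1 z.2 A24) (rev z.1 z.2 A33)
    (rev z.1 z.2 A34) (rev z.1 z.2 A44) z1 z2 z3 z4) ?_ half x y hxy
  unfold form4
  have c1 := continuous_rev A11
  have c2 := continuous_rev A12
  have c3 := continuous_rev A13
  have c4 := continuous_rev A14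
  have c5 := continuous_rev A22
  have c6 := continuous_rev A23
  have c7 := continuous_rev A24
  have c8 := continuous_rev A33
  have c9 := continuous_rev A34
  have c10 := continuous_rev A44
  have t : ∀ {g : ℝ × ℝ → ℝ}, Continuous g → ∀ u v : ℝ, Continuous fun z => 2 * g z * u * v :=
    fun hg u v => ((continuous_const.mul hg).mul continuous_const).mul continuous_const
  exact (((((((((c1.mul continuous_const).add (c5.mul continuous_const)).add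
    (c8.mul continuous_const)).add (c10.mul continuous_const)).add (t c2 z1 z2)).add
    (t c3 z1 z3)).add (t c4 z1 z4)).add (t c6 z2 z3)).add (t c7 z2 z4)).add (t c9 z3 z4)

end Vale.Agent.P211.H237
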