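import Vale.Agent.P211.H626.Vok0
import Vale.Agent.P211.H626.Vok1
import Vale.Agent.P211.H626.Vok2
import Vale.Agent.P211.Tr.V0I
import Vale.Agent.P211.Tr.V0II
import Vale.Agent.P211.Tr.V0C
import Vale.Agent.P211.Tr.V1I
import Vale.Agent.P211.Tr.V1II
import Vale.Agent.P211.Tr.V1C
import Vale.Agent.P211.Tr.V2I
import Vale.Agent.P211.Tr.V2II
import Vale.Agent.P211.Tr.V2C

set_option linter.all false

/-! P211: the analytic core, from the nine kernel-checked trees. -/

namespace Vale.Agent.P211.H210

open Vale.Agent.P211.H626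

/-- **The core.** -/
theorem core : Core :=
  core_of_vok (vok0_of cov0I cov0II cov0C) (vok1_of cov1I cov1II cov1C)
    (vok2_of cov2I cov2II cov2C)

end Vale.Agent.P211.H210
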