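import Vale.Agent.P211.H129.Chart
import Vale.Agent.P211.H210.Asm

set_option linter.all false

/-! P211 (helper210): the charts I', II cover the domain; gluing of the charts. -/

namespace Vale.Agent.P211.H210

open Vale.Agent.P211 Vale.Agent.P211.S4 Vale.Agent.P211.H626

/-- **Chart I'**: `N = r w`, `M = 2 r (1 - w)`. -/
theorem cover_I {N M p κ : ℝ} (h : Dom N M p κ) (h2 : 2 * N + M ≤ 2) : ∃ r w : ℝ,
    0 ≤ r ∧ r ≤ 1 ∧ 0 ≤ w ∧ w ≤ 1 ∧ N = r * w ∧ M = 2 * r * (1 - w) := by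
  have hN := h.N0
  have hM := h.M0
  rcases (show 0 ≤ 2 * N + M by linarith).lt_or_eq with h0 | h0
  · have h1 : 0 < (2 * N + M) / 2 := by linarith
    have h3 : 2 * N + M ≠ 0 := h0.ne'
    have e : (2 * N + M) / 2 * (N / ((2 * N + M) / 2)) = N := mul_div_cancel₀ _ h1.ne'
    refine ⟨(2 * N + M) / 2, N / ((2 * N + M) / 2), h1.le, by linarith, div_nonneg hN h1.le, ?_,
      e.symm, ?_⟩
    · rw [div_le_one h1]; linarith
    · have : 2 * ((2 * N + M) / 2) * (1 - N / ((2 * N + M) / 2)) =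
        2 * ((2 * N + M) / 2) - 2 * ((2 * N + M) / 2 * (N / ((2 * N + M) / 2))) := by ring
      rw [this, e]; ring
  · exact ⟨0, 0, le_rfl, zero_le_one, le_rfl, zero_le_one, by linarith, by linarith⟩

theorem p_le_49 {N M p κ : ℝ} (h : Dom N M p κ) (h2 : 2 * N + M ≤ 2) : p ≤ 49 := by
  have h1 := h.N0
  have h3 := h.ap
  have hM := h.M0
  have hN : N ≤ 1 := by linarith
  have h3 : -1 * N ^ 3 ≤ κ * N ^ 3 := mul_le_mul_of_nonneg_right h.k1 (by positivity)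
  have h4 : N ^ 2 ≤ 1 := by nlinarith
  have h5 : N ^ 3 ≤ 1 := by nlinarith
  linarith

/-- **Chart II**: `N = b v`, `M = 2 - b`, `p = P cap`, `κ v³ = v³ - s g(v)`. -/
theorem cover_II {N M p κ : ℝ} (h : Dom N M p κ) (h2 : 2 < 2 * N + M) : ∃ b v P s : ℝ,
    0 < b ∧ b ≤ 2 ∧ 1 / 2 < v ∧ v ≤ 1 ∧ 0 ≤ P ∧ P ≤ 1 ∧ 0 ≤ s ∧ s ≤ 1 ∧
    N = b * v ∧ M = 2 - b ∧ p = P * (20 * Tht N M - 12 * (N - M) ^ 2) ∧
    κ * v ^ 3 = v ^ 3 - s * ((1 - v) ^ 2 * (1 + 2 * v) / 2) ∧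
    0 < 20 * Tht N M - 12 * (N - M) ^ 2 ∧ (0 < p → 0 < P) := by
  have hN := h.N0
  have hM := h.M0
  have hNM := h.NM
  have hb : 0 < 2 - M := by linarith
  have hv1 : 1 / 2 < N / (2 - M) := by rw [lt_div_iff₀ hb]; linarith
  have hv2 : N / (2 - M) ≤ 1 := by rw [div_le_one hb]; linarith
  obtain ⟨v, hv⟩ : ∃ v : ℝ, v = N / (2 - M) := ⟨_, rfl⟩
  obtain ⟨b, hbb⟩ : ∃ b : ℝ, b = 2 - M := ⟨_, rfl⟩
  rw [← hv] at hv1 hv2
  rw [← hbb] at hb hv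
  have e1 : N = b * v := by rw [hv]; field_simp
  have e2 : M = 2 - b := by linarith
  have hcap : 20 * Tht N M - 12 * (N - M) ^ 2 = 20 * (6 * (2 - N - M) + 2 / 5 * (N - M) ^ 2) := by
    unfold Tht; ring
  have hc0 : 0 < 20 * Tht N M - 12 * (N - M) ^ 2 := by
    rw [hcap]
    rcases (show 0 ≤ 2 - N - M by linarith).lt_or_eq with h5 | h5
    · positivity
    · have h6 : N - M ≠ 0 := fun h6 => h.ne ⟨by linarith, by linarith⟩
      positivity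
  have hk1 : v ^ 3 * (1 - κ) ≤ (1 - v) ^ 2 * (1 + 2 * v) / 2 := by
    have h3 := h.kmin
    rw [e1, e2] at h3
    have h4 : b ^ 3 * (v ^ 3 * (1 - κ)) ≤ b ^ 3 * ((1 - v) ^ 2 * (1 + 2 * v) / 2) := by nlinarith
    exact le_of_mul_le_mul_left h4 (by positivity)
  have hk2 : 0 ≤ v ^ 3 * (1 - κ) := mul_nonneg (by positivity) (by linarith [h.k2])
  have hg : 0 ≤ (1 - v) ^ 2 * (1 + 2 * v) / 2 := by positivity
  obtain ⟨s, hs0, hs1, hs⟩ : ∃ s : ℝ, 0 ≤ s ∧ s ≤ 1 ∧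
      v ^ 3 * (1 - κ) = s * ((1 - v) ^ 2 * (1 + 2 * v) / 2) := by
    rcases hg.lt_or_eq with hg' | hg'
    · refine ⟨v ^ 3 * (1 - κ) / ((1 - v) ^ 2 * (1 + 2 * v) / 2), div_nonneg hk2 hg, ?_, ?_⟩
      · rw [div_le_one hg']; exact hk1
      · rw [div_mul_cancel₀ _ hg'.ne']
    · exact ⟨0, le_rfl, zero_le_one, by rw [zero_mul]; linarith⟩
  refine ⟨b, v, p / (20 * Tht N M - 12 * (N - M) ^ 2), s, hb, by linarith, hv1, hv2,
    div_nonneg h.p0 hc0.le, ?_, hs0, hs1, e1, e2, ?_, by linarith, hc0, fun hp => div_pos hp hc0⟩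
  · rw [div_le_one hc0, hcap]; exact h.ap2
  · rw [div_mul_cancel₀ _ hc0.ne']

/-- **Gluing of the charts.** -/
theorem pw_of_charts {Q : ℝ → ℝ → ℝ → ℝ → Prop}
    (hC : ∀ N M p κ, Dom N M p κ → 0 < p → Tht N M ≤ 1 / 4 → Q N M p κ)
    (hI : ∀ N M p κ, Dom N M p κ → 0 < p → 1 / 4 ≤ Tht N M → 2 * N + M ≤ 2 → Q N M p κ)
    (hII : ∀ N M p κ, Dom N M p κ → 0 < p → 1 / 4 ≤ Tht N M → 2 < 2 * N + M → Q N M p κ) :
    ∀ N M p κ, Dom N M p κ → 0 < p → Q N M p κ := by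
  intro N M p κ h hp
  rcases le_total (Tht N M) (1 / 4) with h1 | h1
  · exact hC N M p κ h hp h1
  · rcases le_or_gt (2 * N + M) 2 with h2 | h2
    · exact hI N M p κ h hp h1 h2
    · exact hII N M p κ h hp h1 h2

end Vale.Agent.P211.H210
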