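import Vale.Agent.P211.H237.Lz

set_option linter.all false

/-!
P211 (helper210): positive semidefiniteness of a 3x3 matrix of polynomials on a cell by testing the
principal minors of every (Bernstein type) control matrix.
-/

namespace Vale.Agent.P211.H237

open MvPolynomial

/-! ### digits of the packed number -/

theorem dig2_digit (β K D : ℕ) (f : ℕ → ℕ → ℕ) (hf : ∀ i < K, ∀ j < D, f i j < 2 ^ β) (i j : ℕ)
    (hi : i < K) (hj : j < D) :
    (dig2 β K D f / 2 ^ (β * (K * j + i))) % 2 ^ β = f i j := by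
  apply Nat.eq_of_testBit_eq
  intro b
  rw [Nat.testBit_mod_two_pow, Nat.testBit_div_two_pow]
  by_cases hb : b < β
  · have h1 := dig2_testBit β K D f hf i j b hi hj hb
    have e : b + β * (K * j + i) = β * K * j + (β * i + b) := by ring
    rw [e, h1]
    simp [hb]
  · have h2 : (f i j).testBit b = false := by
      apply Nat.testBit_lt_two_pow
      exact (hf i hi j hj).trans_le (Nat.pow_le_pow_right (by norm_num) (not_lt.mp hb))
    rw [h2]
    simp [hb]

/-- digit number `i` of `v` in base `2^k` -/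
def dgs (k v i : ℕ) : ℕ := (v / 2 ^ (k * i)) % 2 ^ k

theorem exists_digits' (P : MP) (Q : MN) (hPQ : Dom P Q) (β K D : ℕ)
    (h0 : ∀ m ∈ P.support, m 0 < K) (h1 : ∀ m ∈ P.support, m 1 < D)
    (hn : eval (fun _ => 1) Q < 2 ^ β) :
    ∃ Y : ℕ, (Y : ℤ) = eval ![2 ^ (β + 1), 2 ^ ((β + 1) * K)] P + (mask β K D : ℤ) ∧
      Y < 2 ^ ((β + 1) * (K * D)) ∧
      ∀ i < K, ∀ j < D, ((dgs (β + 1) Y (K * j + i) : ℕ) : ℤ) = coeff (ex i j) P + 2 ^ β := by
  have hb : ∀ m, (coeff m P).natAbs < 2 ^ β := fun m =>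
    ((hPQ m).trans (coeff_le_eval Q m)).trans_lt hn
  set f : ℕ → ℕ → ℕ := fun i j => (coeff (ex i j) P + 2 ^ β).toNat with hf
  have hfc : ∀ i j, ((f i j : ℕ) : ℤ) = coeff (ex i j) P + 2 ^ β := by
    intro i j
    rw [hf]; simp only
    rw [Int.toNat_of_nonneg]
    have h1 := hb (ex i j)
    have h2 : (((2 : ℕ) ^ β : ℕ) : ℤ) = 2 ^ β := by push_cast; rfl
    omega
  have hflt : ∀ i < K, ∀ j < D, f i j < 2 ^ (β + 1) := by
    intro i _ j _
    have h1 := hb (ex i j)
    have h2 : (((2 : ℕ) ^ β : ℕ) : ℤ) = 2 ^ β := by push_cast; rfl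
    have h3 := hfc i j
    have h4 : (2 : ℕ) ^ (β + 1) = 2 * 2 ^ β := by rw [pow_succ]; ring
    omega
  refine ⟨dig2 (β + 1) K D f, ?_, dig2_lt _ _ _ _ hflt, ?_⟩
  · rw [← mask_eq, dig2_cast, dig2_cast, eval_eq']
    simp only [Fin.prod_univ_two, Matrix.cons_val_zero, Matrix.cons_val_one]
    rw [sum_support_eq P K D h0 h1 (fun m a => a * ((2 ^ (β + 1)) ^ m 0 *
      (2 ^ ((β + 1) * K)) ^ m 1)) (fun m => by simp), ← Finset.sum_add_distrib]
    refine Finset.sum_congr rfl fun j _ => ?_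
    rw [← Finset.sum_add_distrib]
    refine Finset.sum_congr rfl fun i _ => ?_
    rw [hfc, ex_zero, ex_one]
    push_cast
    ring
  · intro i hi j hj
    unfold dgs
    rw [dig2_digit (β + 1) K D f hflt i j hi hj]
    exact hfc i j

theorem eval_sum (P : MP) (K D : ℕ)
    (h0 : ∀ m ∈ P.support, m 0 < K) (h1 : ∀ m ∈ P.support, m 1 < D) (t r : ℝ) :
    eval₂ (Int.castRingHom ℝ) ![t, r] P =
      ∑ j ∈ Finset.range D, ∑ i ∈ Finset.range K, ((coeff (ex i j) P : ℤ) : ℝ) * (t ^ i * r ^ j) := by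
  rw [eval₂_eq']
  have := sum_support_eq P K D h0 h1 (fun m a => (a : ℝ) * (t ^ m 0 * r ^ m 1))
    (fun m => by simp)
  simp only [ex_zero, ex_one] at this
  rw [← this]
  refine Finset.sum_congr rfl fun m _ => ?_
  simp [Fin.prod_univ_two]

/-- the parameters `t, r` of a point of the half open cell -/
noncomputable def tt (c : CellP) (x : ℝ) : ℝ := (c.xq * x - c.xa) / (c.xb - c.xq * x)
noncomputable def rr' (c : CellP) (y : ℝ) : ℝ := (c.yq * y - c.ya) / (c.yb - c.yq * y)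

/-- the common positive factor -/
noncomputable def pos' (F : Fam) (c : CellP) (x y : ℝ) : ℝ :=
  (c.xq + c.xq * tt c x) ^ F.D * (c.yq + c.yq * rr' c y) ^ F.E

variable {F : Fam} {c : CellP} {C : Ctx F c}

theorem Rep.expand {v : ℕ} {P : MP} {n : ℕ} (h : Rep C v P n)
    (hn : n * (F.nx ^ F.D * F.ny ^ F.E) < 2 ^ F.β) (x y : ℝ)
    (h2 : c.xq * x < c.xb) (h4 : c.yq * y < c.yb) :
    pos' F c x y * rev x y P =
      ∑ j ∈ Finset.range (F.E + 1), ∑ i ∈ Finset.range (F.D + 1),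
        ((dgs (F.β + 1) ((v + F.msk) % F.W) ((F.D + 1) * j + i) : ℝ) - 2 ^ F.β) *
          (tt c x ^ i * rr' c y ^ j) := by
  have hW : F.W = 2 ^ ((F.β + 1) * ((F.D + 1) * (F.E + 1))) := rfl
  have hP := h.1
  set β := F.β with hβ
  set D := F.D with hD
  set E := F.E with hE
  set H : MP := Hom P D E (lin 0 c.xq c.xq) (lin 0 c.xa c.xb) (lin 1 c.yq c.yq) (lin 1 c.ya c.yb)
    with hH
  have hHb : Bd H (n * (F.nx ^ D * F.ny ^ E)) D E :=
    Hom_bd hP (lin_bd0 _ _ (by simpa [two_mul] using C.hx)) (lin_bd0 _ _ C.hx')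
      (lin_bd1 _ _ (by simpa [two_mul] using C.hy)) (lin_bd1 _ _ C.hy')
  obtain ⟨⟨Q, hQ, hQn⟩, -, -⟩ := id hHb
  have s0 : ∀ m ∈ H.support, m 0 < D + 1 := fun m hm => Nat.lt_succ_of_le (hHb.supp0 hm)
  have s1 : ∀ m ∈ H.support, m 1 < E + 1 := fun m hm => Nat.lt_succ_of_le (hHb.supp1 hm)
  obtain ⟨Y, hY, hYlt, hYd⟩ := exists_digits' H Q hQ β (D + 1) (E + 1) s0 s1 (hQn.trans_lt hn)
  rw [← hW] at hYlt
  have hxb := C.hxb
  have hyb := C.hyb
  -- evaluation modulo W
  have hmod : (v : ZMod F.W) = ((eval ![2 ^ (β + 1), 2 ^ ((β + 1) * (D + 1))] H : ℤ) : ZMod F.W) := by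
    have h5 := map_Hom ((Int.castRingHom (ZMod F.W)).comp
      (eval ![(2 : ℤ) ^ (β + 1), 2 ^ ((β + 1) * (D + 1))])) hP C.xb C.yb
      (x0 := lin 0 c.xq c.xq) (x1 := lin 0 c.xa c.xb) (y0 := lin 1 c.yq c.yq)
      (y1 := lin 1 c.ya c.yb) (by
        simp only [lin, RingHom.comp_apply, map_add, map_mul, eval_C, eval_X,
          Matrix.cons_val_zero]
        simp only [map_pow, eq_intCast, Int.cast_natCast, Int.cast_ofNat]
        rw [hxb]; ring) (by
        simp only [lin, RingHom.comp_apply, map_add, map_mul, eval_C, eval_X,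
          Matrix.cons_val_one, Matrix.cons_val_fin_one]
        simp only [map_pow, eq_intCast, Int.cast_natCast, Int.cast_ofNat]
        rw [hyb]; ring)
    rw [← hH] at h5
    rw [h.2.2, C.hs0]
    have h6 : ((eval ![2 ^ (β + 1), 2 ^ ((β + 1) * (D + 1))] H : ℤ) : ZMod F.W)
        = ((Int.castRingHom (ZMod F.W)).comp
      (eval ![(2 : ℤ) ^ (β + 1), 2 ^ ((β + 1) * (D + 1))])) H := rfl
    rw [h6, h5]
    simp only [lin, RingHom.comp_apply, map_add, map_mul, eval_C, eval_X,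
          Matrix.cons_val_zero, Matrix.cons_val_one, Matrix.cons_val_fin_one]
    simp only [map_pow, eq_intCast, Int.cast_natCast, Int.cast_ofNat]
    congr 1
    ring
  have hYv : (v + F.msk) % F.W = Y := by
    have h5 : ((v + F.msk : ℕ) : ZMod F.W) = ((Y : ℕ) : ZMod F.W) := by
      have h6 : ((Y : ℕ) : ZMod F.W) = (((Y : ℕ) : ℤ) : ZMod F.W) := by push_cast; rfl
      rw [h6, hY]; push_cast; rw [← hmod]; rfl
    rw [ZMod.natCast_eq_natCast_iff] at h5
    unfold Nat.ModEq at h5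
    rw [h5, Nat.mod_eq_of_lt hYlt]
  rw [hYv]
  have hmap := map_Hom (eval₂Hom (Int.castRingHom ℝ) ![tt c x, rr' c y]) hP x y
    (x0 := lin 0 c.xq c.xq) (x1 := lin 0 c.xa c.xb) (y0 := lin 1 c.yq c.yq)
    (y1 := lin 1 c.ya c.yb) (by
      have hq : (0 : ℝ) < c.xb - c.xq * x := by linarith
      simp only [lin, map_add, map_mul, coe_eval₂Hom, eval₂_C, eval₂_X, Matrix.cons_val_zero]
      simp only [eq_intCast, Int.cast_natCast]
      unfold tt; field_simp; ring) (by
      have hq' : (0 : ℝ) < c.yb - c.yq * y := by linarith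
      simp only [lin, map_add, map_mul, coe_eval₂Hom, eval₂_C, eval₂_X, Matrix.cons_val_one,
        Matrix.cons_val_fin_one]
      simp only [eq_intCast, Int.cast_natCast]
      unfold rr'; field_simp; ring)
  rw [← hH, coe_eval₂Hom] at hmap
  rw [eval_sum H (D + 1) (E + 1) s0 s1] at hmap
  have e1 : eval₂ (Int.castRingHom ℝ) ![tt c x, rr' c y] (lin 0 c.xq c.xq) ^ D *
      eval₂ (Int.castRingHom ℝ) ![tt c x, rr' c y] (lin 1 c.yq c.yq) ^ E = pos' F c x y := by
    unfold pos'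
    simp only [lin, eval₂_add, eval₂_mul, eval₂_C, eval₂_X, Matrix.cons_val_zero,
      Matrix.cons_val_one, Matrix.cons_val_fin_one]
    simp only [eq_intCast, Int.cast_natCast]
    rfl
  rw [e1] at hmap
  have e2 : eval₂ (Int.castRingHom ℝ) ![x, y] P = rev x y P := rfl
  rw [e2] at hmap
  rw [← hmap]
  refine Finset.sum_congr rfl fun j hj => Finset.sum_congr rfl fun i hi => ?_
  have h7 := hYd i (Finset.mem_range.mp hi) j (Finset.mem_range.mp hj)
  have h8 : ((dgs (β + 1) Y ((D + 1) * j + i) : ℕ) : ℝ) = ((coeff (ex i j) H : ℤ) : ℝ) + 2 ^ β := by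
    have := congrArg (Int.cast : ℤ → ℝ) h7
    push_cast at this
    exact this
  rw [h8]; ring

/-! ### Sylvester -/

theorem syl3 {a b c d e f : ℝ} (ha : 0 ≤ a) (hd : 0 ≤ d) (hf : 0 ≤ f) (h1 : b ^ 2 ≤ a * d)
    (h2 : c ^ 2 ≤ a * f) (h3 : e ^ 2 ≤ d * f)
    (h4 : a * e ^ 2 + d * c ^ 2 + f * b ^ 2 ≤ a * d * f + 2 * b * c * e) (x y z : ℝ) :
    0 ≤ a * x ^ 2 + 2 * b * x * y + 2 * c * x * z + d * y ^ 2 + 2 * e * y * z + f * z ^ 2 := by
  rcases ha.lt_or_eq with ha' | ha'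
  · rcases (show 0 ≤ a * d - b ^ 2 by linarith).lt_or_eq with hΔ | hΔ
    · have key : a * (a * d - b ^ 2) *
          (a * x ^ 2 + 2 * b * x * y + 2 * c * x * z + d * y ^ 2 + 2 * e * y * z + f * z ^ 2) =
          (a * d - b ^ 2) * (a * x + b * y + c * z) ^ 2 +
          ((a * d - b ^ 2) * y + (a * e - b * c) * z) ^ 2 +
          a * (a * d * f + 2 * b * c * e - (a * e ^ 2 + d * c ^ 2 + f * b ^ 2)) * z ^ 2 := by ring
      have h5 : 0 ≤ a * (a * d - b ^ 2) *
          (a * x ^ 2 + 2 * b * x * y + 2 * c * x * z + d * y ^ 2 + 2 * e * y * z + f * z ^ 2) := by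
        rw [key]
        have := sub_nonneg.mpr h4
        positivity
      exact nonneg_of_mul_nonneg_right h5 (by positivity)
    · have h6 : (a * e - b * c) ^ 2 = 0 := by
        have e1 : a * (a * d * f + 2 * b * c * e - (a * e ^ 2 + d * c ^ 2 + f * b ^ 2)) =
          (a * d - b ^ 2) * (a * f - c ^ 2) - (a * e - b * c) ^ 2 := by ring
        have e2 := mul_nonneg ha (sub_nonneg.mpr h4)
        rw [e1, ← hΔ] at e2
        nlinarith [sq_nonneg (a * e - b * c)]
      have h7 : a * e - b * c = 0 := by simpa using h6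
      have key : a *
          (a * x ^ 2 + 2 * b * x * y + 2 * c * x * z + d * y ^ 2 + 2 * e * y * z + f * z ^ 2) =
          (a * x + b * y + c * z) ^ 2 + (a * d - b ^ 2) * y ^ 2 + 2 * (a * e - b * c) * (y * z)
          + (a * f - c ^ 2) * z ^ 2 := by ring
      have h5 : 0 ≤ a *
          (a * x ^ 2 + 2 * b * x * y + 2 * c * x * z + d * y ^ 2 + 2 * e * y * z + f * z ^ 2) := by
        rw [key, h7, ← hΔ]
        have := sub_nonneg.mpr h2
        nlinarith [mul_nonneg this (sq_nonneg z), sq_nonneg (a * x + b * y + c * z)]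
      exact nonneg_of_mul_nonneg_right h5 ha'
  · rw [← ha', zero_mul] at h1 h2
    have hb : b = 0 := by nlinarith [sq_nonneg b]
    have hc : c = 0 := by nlinarith [sq_nonneg c]
    rw [← ha', hb, hc]
    rcases hd.lt_or_eq with hd' | hd'
    · have key : d * (0 * x ^ 2 + 2 * 0 * x * y + 2 * 0 * x * z + d * y ^ 2 + 2 * e * y * z
          + f * z ^ 2) = (d * y + e * z) ^ 2 + (d * f - e ^ 2) * z ^ 2 := by ring
      have h5 : 0 ≤ d * (0 * x ^ 2 + 2 * 0 * x * y + 2 * 0 * x * z + d * y ^ 2 + 2 * e * y * z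
          + f * z ^ 2) := by
        rw [key]
        have := sub_nonneg.mpr h3
        positivity
      exact nonneg_of_mul_nonneg_right h5 hd'
    · rw [← hd', zero_mul] at h3
      have he : e = 0 := by nlinarith [sq_nonneg e]
      rw [← hd', he]
      have : 0 ≤ f * z ^ 2 := by positivity
      linarith

/-- absolute difference -/
def ad (a h : ℕ) : ℕ := (a - h) + (h - a)

theorem ad_sq (a h : ℕ) : ((ad a h : ℕ) : ℝ) ^ 2 = ((a : ℝ) - h) ^ 2 := by
  unfold ad
  rcases le_total a h with h1 | h1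
  · rw [Nat.sub_eq_zero_of_le h1, Nat.zero_add, Nat.cast_sub h1]; ring
  · rw [Nat.sub_eq_zero_of_le h1, Nat.add_zero, Nat.cast_sub h1]

/-- the sign of `(b-h)(c-h)(e-h)`: true if negative parity -/
def sg3 (h b c e : ℕ) : Bool := xor (Nat.blt b h) (xor (Nat.blt c h) (Nat.blt e h))

theorem ad_prod (h b c e : ℕ) :
    ((b : ℝ) - h) * ((c : ℝ) - h) * ((e : ℝ) - h) =
      if sg3 h b c e = true then -((ad b h : ℝ) * ad c h * ad e h)
      else (ad b h : ℝ) * ad c h * ad e h := by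
  have key : ∀ a : ℕ, ((a : ℝ) - h) = if Nat.blt a h = true then -(ad a h : ℝ) else (ad a h : ℝ) := by
    intro a
    unfold ad
    by_cases h1 : a < h
    · rw [if_pos (by rw [Nat.blt_eq]; exact h1), Nat.sub_eq_zero_of_le h1.le, Nat.zero_add,
        Nat.cast_sub h1.le]; ring
    · rw [if_neg (by rw [Nat.blt_eq]; exact h1), Nat.sub_eq_zero_of_le (not_lt.mp h1),
        Nat.add_zero, Nat.cast_sub (not_lt.mp h1)]
  rw [key b, key c, key e]
  unfold sg3
  cases Nat.blt b h <;> cases Nat.blt c h <;> cases Nat.blt e h <;> simp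

/-- the test of one control matrix; digits with offset `h` -/
def sylN (h a b c d e f : ℕ) : Bool :=
  Nat.ble h a && Nat.ble h d && Nat.ble h f &&
  Nat.ble (ad b h * ad b h) ((a - h) * (d - h)) &&
  Nat.ble (ad c h * ad c h) ((a - h) * (f - h)) &&
  Nat.ble (ad e h * ad e h) ((d - h) * (f - h)) &&
  Bool.rec
    (Nat.ble ((a - h) * (ad e h * ad e h) + (d - h) * (ad c h * ad c h)
      + (f - h) * (ad b h * ad b h)) ((a - h) * (d - h) * (f - h) + 2 * (ad b h * ad c h * ad e h)))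
    (Nat.ble ((a - h) * (ad e h * ad e h) + (d - h) * (ad c h * ad c h)
      + (f - h) * (ad b h * ad b h) + 2 * (ad b h * ad c h * ad e h))
      ((a - h) * (d - h) * (f - h)))
    (sg3 h b c e)

theorem sylN_sound {h a b c d e f : ℕ} (hs : sylN h a b c d e f = true) (x y z : ℝ) :
    0 ≤ ((a : ℝ) - h) * x ^ 2 + 2 * ((b : ℝ) - h) * x * y + 2 * ((c : ℝ) - h) * x * z
      + ((d : ℝ) - h) * y ^ 2 + 2 * ((e : ℝ) - h) * y * z + ((f : ℝ) - h) * z ^ 2 := by
  unfold sylN at hs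
  simp only [Bool.and_eq_true, Nat.ble_eq] at hs
  obtain ⟨⟨⟨⟨⟨⟨h1, h2⟩, h3⟩, h4⟩, h5⟩, h6⟩, h7⟩ := hs
  have ea : (((a - h : ℕ)) : ℝ) = (a : ℝ) - h := Nat.cast_sub h1
  have ed : (((d - h : ℕ)) : ℝ) = (d : ℝ) - h := Nat.cast_sub h2
  have ef : (((f - h : ℕ)) : ℝ) = (f : ℝ) - h := Nat.cast_sub h3
  have h4' : ((ad b h : ℕ) : ℝ) ^ 2 ≤ ((a : ℝ) - h) * ((d : ℝ) - h) := by
    rw [← ea, ← ed, pow_two]; exact_mod_cast h4
  have h5' : ((ad c h : ℕ) : ℝ) ^ 2 ≤ ((a : ℝ) - h) * ((f : ℝ) - h) := by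
    rw [← ea, ← ef, pow_two]; exact_mod_cast h5
  have h6' : ((ad e h : ℕ) : ℝ) ^ 2 ≤ ((d : ℝ) - h) * ((f : ℝ) - h) := by
    rw [← ed, ← ef, pow_two]; exact_mod_cast h6
  rw [ad_sq] at h4' h5' h6'
  refine syl3 (by rw [← ea]; positivity) (by rw [← ed]; positivity) (by rw [← ef]; positivity)
    h4' h5' h6' ?_ x y z
  have hp := ad_prod h b c e
  cases hb : sg3 h b c e with
  | false =>
    rw [hb] at h7 hp
    have h8 : ((a - h) * (ad e h * ad e h) + (d - h) * (ad c h * ad c h)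
      + (f - h) * (ad b h * ad b h)) ≤
        ((a - h) * (d - h) * (f - h) + 2 * (ad b h * ad c h * ad e h)) := by
      rw [← Nat.ble_eq]; exact h7
    have h9 : (((a - h) * (ad e h * ad e h) + (d - h) * (ad c h * ad c h)
      + (f - h) * (ad b h * ad b h) : ℕ) : ℝ) ≤
        (((a - h) * (d - h) * (f - h) + 2 * (ad b h * ad c h * ad e h) : ℕ) : ℝ) := by
      exact_mod_cast h8
    push_cast [ea, ed, ef] at h9
    have e1 := ad_sq b h
    have e2 := ad_sq c h
    have e3 := ad_sq e h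
    simp only [Bool.false_eq_true, if_false] at hp
    rw [← e1, ← e2, ← e3]
    have e4 : 2 * ((b : ℝ) - h) * ((c : ℝ) - h) * ((e : ℝ) - h) =
        2 * ((ad b h : ℝ) * ad c h * ad e h) := by rw [← hp]; ring
    rw [e4]
    linarith
  | true =>
    rw [hb] at h7 hp
    have h8 : ((a - h) * (ad e h * ad e h) + (d - h) * (ad c h * ad c h)
      + (f - h) * (ad b h * ad b h)) + 2 * (ad b h * ad c h * ad e h) ≤
        ((a - h) * (d - h) * (f - h)) := by
      rw [← Nat.ble_eq]; exact h7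
    have h9 : (((a - h) * (ad e h * ad e h) + (d - h) * (ad c h * ad c h)
      + (f - h) * (ad b h * ad b h) + 2 * (ad b h * ad c h * ad e h) : ℕ) : ℝ) ≤
        (((a - h) * (d - h) * (f - h) : ℕ) : ℝ) := by
      exact_mod_cast h8
    push_cast [ea, ed, ef] at h9
    have e1 := ad_sq b h
    have e2 := ad_sq c h
    have e3 := ad_sq e h
    simp only [if_true] at hp
    rw [← e1, ← e2, ← e3]
    have e4 : 2 * ((b : ℝ) - h) * ((c : ℝ) - h) * ((e : ℝ) - h) =
        -(2 * ((ad b h : ℝ) * ad c h * ad e h)) := by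
      have : 2 * ((b : ℝ) - h) * ((c : ℝ) - h) * ((e : ℝ) - h) =
        2 * (((b : ℝ) - h) * ((c : ℝ) - h) * ((e : ℝ) - h)) := by ring
      rw [this, hp]; ring
    rw [e4]
    linarith

/-- check of all digits below `n` -/
noncomputable def allD (n : ℕ) (p : ℕ → Bool) : Bool := Nat.rec true (fun i ih => p i && ih) n

theorem allD_sound (p : ℕ → Bool) : ∀ n, allD n p = true → ∀ i < n, p i = true
  | 0, _, i, hi => absurd hi (Nat.not_lt_zero _)
  | n + 1, h, i, hi => by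
    have h' : (p n && allD n p) = true := h
    rw [Bool.and_eq_true] at h'
    rcases Nat.lt_succ_iff_lt_or_eq.mp hi with h1 | h1
    · exact allD_sound p n h'.2 i h1
    · rw [h1]; exact h'.1

/-- evaluate `n` before calling `k` -/
noncomputable def force (n : ℕ) (k : ℕ → Bool) : Bool := Nat.rec (k 0) (fun m _ => k (m + 1)) n

theorem force_eq (n : ℕ) (k : ℕ → Bool) : force n k = k n := by
  cases n <;> rfl

/-- the check: `K = β + 1` bits per digit, `h = 2^β`, `n` digits -/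
noncomputable def syl (K h n a b c d e f : ℕ) : Bool :=
  force a fun a => force b fun b => force c fun c => force d fun d => force e fun e =>
  force f fun f =>
  allD n fun i => sylN h (dgs K a i) (dgs K b i) (dgs K c i) (dgs K d i) (dgs K e i) (dgs K f i)

/-- from the half open to the closed cell -/
theorem nonneg_closed (C : Ctx F c) (g : ℝ × ℝ → ℝ) (hg : Continuous g)
    (half : ∀ x y : ℝ, (c.xa : ℝ) ≤ c.xq * x → c.xq * x < c.xb → (c.ya : ℝ) ≤ c.yq * y →
      c.yq * y < c.yb → 0 ≤ g (x, y)) (x y : ℝ) (hxy : c.In x y) : 0 ≤ g (x, y) := by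
  obtain ⟨h1, h2, h3, h4⟩ := hxy
  have hxq' : (0 : ℝ) < c.xq := by exact_mod_cast C.hxq
  have hyq' : (0 : ℝ) < c.yq := by exact_mod_cast C.hyq
  have hxl' : (c.xa : ℝ) < c.xb := by exact_mod_cast C.hxl
  have hyl' : (c.ya : ℝ) < c.yb := by exact_mod_cast C.hyl
  have hcl : IsClosed {z : ℝ × ℝ | 0 ≤ g z} := isClosed_le continuous_const hg
  have hsub : Set.Ico ((c.xa : ℝ) / c.xq) (c.xb / c.xq) ×ˢ Set.Ico ((c.ya : ℝ) / c.yq) (c.yb / c.yq)
      ⊆ {z : ℝ × ℝ | 0 ≤ g z} := by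
    rintro ⟨x', y'⟩ ⟨⟨ha, hb⟩, ⟨hc, hd⟩⟩
    simp only at ha hb hc hd
    refine half x' y' ?_ ?_ ?_ ?_
    · rw [div_le_iff₀ hxq'] at ha; linarith
    · rw [lt_div_iff₀ hxq'] at hb; linarith
    · rw [div_le_iff₀ hyq'] at hc; linarith
    · rw [lt_div_iff₀ hyq'] at hd; linarith
  have h5 := hcl.closure_subset_iff.mpr hsub
  rw [closure_prod_eq, closure_Ico, closure_Ico] at h5
  · have h6 : ((x, y) : ℝ × ℝ) ∈ Set.Icc ((c.xa : ℝ) / c.xq) (c.xb / c.xq) ×ˢ
        Set.Icc ((c.ya : ℝ) / c.yq) (c.yb / c.yq) := by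
      refine Set.mk_mem_prod (Set.mem_Icc.mpr ⟨?_, ?_⟩) (Set.mem_Icc.mpr ⟨?_, ?_⟩)
      · rw [div_le_iff₀ hxq']; linarith
      · rw [le_div_iff₀ hxq']; linarith
      · rw [div_le_iff₀ hyq']; linarith
      · rw [le_div_iff₀ hyq']; linarith
    exact h5 h6
  · exact (div_lt_div_of_pos_right hyl' hyq').ne
  · exact (div_lt_div_of_pos_right hxl' hxq').ne

theorem syl_sound {q : Q3} {A B D E G H : MP} {na : ℕ}
    (ha : Rep C q.a A na) (hb : Rep C q.b B na) (hc : Rep C q.c D na) (hd : Rep C q.d E na)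
    (he : Rep C q.e G na) (hf : Rep C q.f H na)
    (hn : na * (F.nx ^ F.D * F.ny ^ F.E) < 2 ^ F.β)
    (h : syl (F.β + 1) (2 ^ F.β) ((F.D + 1) * (F.E + 1)) ((q.a + F.msk) % F.W)
      ((q.b + F.msk) % F.W) ((q.c + F.msk) % F.W) ((q.d + F.msk) % F.W) ((q.e + F.msk) % F.W)
      ((q.f + F.msk) % F.W) = true) (x y : ℝ) (hxy : c.In x y) (z1 z2 z3 : ℝ) :
    0 ≤ rev x y A * z1 ^ 2 + 2 * rev x y B * z1 * z2 + 2 * rev x y D * z1 * z3
      + rev x y E * z2 ^ 2 + 2 * rev x y G * z2 * z3 + rev x y H * z3 ^ 2 := by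
  unfold syl at h
  simp only [force_eq] at h
  have hall := allD_sound _ _ h
  -- half open cell
  have half : ∀ x y : ℝ, (c.xa : ℝ) ≤ c.xq * x → c.xq * x < c.xb → (c.ya : ℝ) ≤ c.yq * y →
      c.yq * y < c.yb → 0 ≤ rev x y A * z1 ^ 2 + 2 * rev x y B * z1 * z2 + 2 * rev x y D * z1 * z3
      + rev x y E * z2 ^ 2 + 2 * rev x y G * z2 * z3 + rev x y H * z3 ^ 2 := by
    intro x y h1 h2 h3 h4
    have ra := ha.expand hn x y h2 h4
    have rb := hb.expand hn x y h2 h4
    have rc := hc.expand hn x y h2 h4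
    have rd := hd.expand hn x y h2 h4
    have re := he.expand hn x y h2 h4
    have rf := hf.expand hn x y h2 h4
    have hq : (0 : ℝ) < c.xb - c.xq * x := by linarith
    have hq' : (0 : ℝ) < c.yb - c.yq * y := by linarith
    have ht0 : 0 ≤ tt c x := div_nonneg (by linarith) hq.le
    have hr0 : 0 ≤ rr' c y := div_nonneg (by linarith) hq'.le
    have hxq : (0 : ℝ) < c.xq := by exact_mod_cast C.hxq
    have hyq : (0 : ℝ) < c.yq := by exact_mod_cast C.hyq
    have hpos : 0 < pos' F c x y := by unfold pos'; positivity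
    have key : pos' F c x y * (rev x y A * z1 ^ 2 + 2 * rev x y B * z1 * z2
        + 2 * rev x y D * z1 * z3
        + rev x y E * z2 ^ 2 + 2 * rev x y G * z2 * z3 + rev x y H * z3 ^ 2) =
        ∑ j ∈ Finset.range (F.E + 1), ∑ i ∈ Finset.range (F.D + 1),
          (((dgs (F.β + 1) ((q.a + F.msk) % F.W) ((F.D + 1) * j + i) : ℝ) - (2 ^ F.β : ℕ)) * z1 ^ 2
          + 2 * ((dgs (F.β + 1) ((q.b + F.msk) % F.W) ((F.D + 1) * j + i) : ℝ) - (2 ^ F.β : ℕ))
            * z1 * z2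
          + 2 * ((dgs (F.β + 1) ((q.c + F.msk) % F.W) ((F.D + 1) * j + i) : ℝ) - (2 ^ F.β : ℕ))
            * z1 * z3
          + ((dgs (F.β + 1) ((q.d + F.msk) % F.W) ((F.D + 1) * j + i) : ℝ) - (2 ^ F.β : ℕ)) * z2 ^ 2
          + 2 * ((dgs (F.β + 1) ((q.e + F.msk) % F.W) ((F.D + 1) * j + i) : ℝ) - (2 ^ F.β : ℕ))
            * z2 * z3
          + ((dgs (F.β + 1) ((q.f + F.msk) % F.W) ((F.D + 1) * j + i) : ℝ) - (2 ^ F.β : ℕ))
            * z3 ^ 2) *
          (tt c x ^ i * rr' c y ^ j) := by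
      have e1 : pos' F c x y * (rev x y A * z1 ^ 2 + 2 * rev x y B * z1 * z2
        + 2 * rev x y D * z1 * z3
        + rev x y E * z2 ^ 2 + 2 * rev x y G * z2 * z3 + rev x y H * z3 ^ 2) =
        (pos' F c x y * rev x y A) * z1 ^ 2 + (pos' F c x y * rev x y B) * (2 * z1 * z2)
        + (pos' F c x y * rev x y D) * (2 * z1 * z3) + (pos' F c x y * rev x y E) * z2 ^ 2
        + (pos' F c x y * rev x y G) * (2 * z2 * z3) + (pos' F c x y * rev x y H) * z3 ^ 2 := by
        ring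
      rw [e1, ra, rb, rc, rd, re, rf]
      simp only [Finset.sum_mul, ← Finset.sum_add_distrib]
      refine Finset.sum_congr rfl fun j _ => Finset.sum_congr rfl fun i _ => ?_
      push_cast
      ring
    have hnn : 0 ≤ pos' F c x y * (rev x y A * z1 ^ 2 + 2 * rev x y B * z1 * z2
        + 2 * rev x y D * z1 * z3
        + rev x y E * z2 ^ 2 + 2 * rev x y G * z2 * z3 + rev x y H * z3 ^ 2) := by
      rw [key]
      refine Finset.sum_nonneg fun j hj => Finset.sum_nonneg fun i hi => mul_nonneg ?_ ?_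
      · have hlt : (F.D + 1) * j + i < (F.D + 1) * (F.E + 1) := by
          have hj' := Finset.mem_range.mp hj
          have hi' := Finset.mem_range.mp hi
          calc (F.D + 1) * j + i < (F.D + 1) * j + (F.D + 1) := by omega
            _ = (F.D + 1) * (j + 1) := by ring
            _ ≤ (F.D + 1) * (F.E + 1) := Nat.mul_le_mul_left _ hj'
        exact sylN_sound (hall _ hlt) z1 z2 z3
      · positivity
    exact nonneg_of_mul_nonneg_right hnn hpos
  refine nonneg_closed C (fun z => rev z.1 z.2 A * z1 ^ 2 + 2 * rev z.1 z.2 B * z1 * z2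
      + 2 * rev z.1 z.2 D * z1 * z3 + rev z.1 z.2 E * z2 ^ 2 + 2 * rev z.1 z.2 G * z2 * z3
      + rev z.1 z.2 H * z3 ^ 2) ?_ half x y hxy
  have cA := continuous_rev A
  have cB := continuous_rev B
  have cD := continuous_rev D
  have cE := continuous_rev E
  have cG := continuous_rev G
  have cH := continuous_rev H
  exact (((((cA.mul continuous_const).add (((continuous_const.mul cB).mul continuous_const).mul
    continuous_const)).add (((continuous_const.mul cD).mul continuous_const).mul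
    continuous_const)).add (cE.mul continuous_const)).add
    (((continuous_const.mul cG).mul continuous_const).mul continuous_const)).add
    (cH.mul continuous_const)

/-- matrix check of six weighted sums -/
noncomputable def zsyl (K h n W m nw : ℕ) (outs : List ℕ) (l : L6) : Bool :=
  Nat.ble (lzB l.a) nw && Nat.ble (lzB l.b) nw && Nat.ble (lzB l.c) nw &&
  Nat.ble (lzB l.d) nw && Nat.ble (lzB l.e) nw && Nat.ble (lzB l.f) nw &&
  syl K h n ((lz W outs l.a + m) % W) ((lz W outs l.b + m) % W) ((lz W outs l.c + m) % W)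
    ((lz W outs l.d + m) % W) ((lz W outs l.e + m) % W) ((lz W outs l.f + m) % W)

theorem zsyl_sound (hF : F.okB = true) (h : F.okC c = true) {nw : ℕ}
    (hw : F.okW nw = true) (l : L6)
    (hl : zsyl (F.β + 1) (2 ^ F.β) ((F.D + 1) * (F.E + 1)) F.W F.msk nw (F.outs c) l = true)
    (x y : ℝ) (hxy : c.In x y) (z1 z2 z3 : ℝ) :
    0 ≤ l.form (valsAt F x y) z1 z2 z3 := by
  unfold zsyl at hl
  unfold Fam.okW at hw
  simp only [Bool.and_eq_true, Nat.ble_eq] at hl
  rw [Nat.blt_eq] at hw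
  obtain ⟨⟨⟨⟨⟨⟨b1, b2⟩, b3⟩, b4⟩, b5⟩, b6⟩, hp⟩ := hl
  have up : ∀ l : List (ℕ × ℤ), lzB l ≤ nw → Rep (F.ctx c h) (lz F.W (F.outs c) l)
      (lzP (run F.prog [X 0, X 1]) l) (nw * F.n0) :=
    fun l hl => (rep_lz hF h l).mono (Nat.mul_le_mul_right _ hl)
  have key := syl_sound (C := F.ctx c h) (q := ⟨lz F.W (F.outs c) l.a, lz F.W (F.outs c) l.b,
      lz F.W (F.outs c) l.c, lz F.W (F.outs c) l.d, lz F.W (F.outs c) l.e,
      lz F.W (F.outs c) l.f⟩)
    (up l.a b1) (up l.b b2) (up l.c b3) (up l.d b4) (up l.e b5) (up l.f b6) hw hp x y hxy z1 z2 z3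
  simp only [rev_lz] at key
  exact key

end Vale.Agent.P211.H237
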