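import Vale.Agent.P211.H237.Leaf4
import Vale.Agent.P211.H210.Syl

set_option linter.all false

/-!
P211 (helper210): the leaves of `H237.Leaf4` with the control-matrix Sylvester test instead of the
triangular congruence (no `T` data).
-/

namespace Vale.Agent.P211.H237

namespace LF4

variable {c : CellP}

/-- validity of a format -/
def Valid5 (f : LF4) : Prop :=
  0 < f.kq ∧ 0 < f.ld ∧ 0 < f.pq ∧ 0 < f.ce ∧ f.F.okB = true ∧ f.F.okW f.nw = true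

/-- the nine scalar lists and four matrices -/
noncomputable def leafE5 (f : LF4) (W m : ℕ) (outs : List ℕ) (l : LD) : Bool :=
  let Q : ℤ := f.kq
  zlin W m f.nw outs (f.scl (l.a * l.a) (l.a * l.b) (l.b * l.b) (2 * Q * Q) (2 * Q * l.k)
    (2 * l.k * l.k) (2 * Q * Q * (l.L00 * l.b)) (l.M0 * l.b)) &&
  zlin W m f.nw outs (f.scl (l.a * l.a) (l.a * l.b) (l.b * l.b) (2 * Q * Q) (Q * (l.k + l.k'))
    (2 * l.k * l.k') (Q * Q * ((l.L00 + l.L01) * l.b)) (l.M0 * l.b)) &&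
  zlin W m f.nw outs (f.scl (l.a * l.a) (l.a * l.b) (l.b * l.b) (2 * Q * Q) (2 * Q * l.k')
    (2 * l.k' * l.k') (2 * Q * Q * (l.L01 * l.b)) (l.M0 * l.b)) &&
  zlin W m f.nw outs (f.scl (l.a' * l.a') (l.a' * l.b') (l.b' * l.b') (2 * Q * Q) (2 * Q * l.k)
    (2 * l.k * l.k) (2 * Q * Q * (l.L10 * l.b')) (l.M1 * l.b')) &&
  zlin W m f.nw outs (f.scl (l.a' * l.a') (l.a' * l.b') (l.b' * l.b') (2 * Q * Q)
    (Q * (l.k + l.k')) (2 * l.k * l.k') (Q * Q * ((l.L10 + l.L11) * l.b')) (l.M1 * l.b')) &&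
  zlin W m f.nw outs (f.scl (l.a' * l.a') (l.a' * l.b') (l.b' * l.b') (2 * Q * Q) (2 * Q * l.k')
    (2 * l.k' * l.k') (2 * Q * Q * (l.L11 * l.b')) (l.M1 * l.b')) &&
  zlin W m f.nw outs (f.scl (2 * l.a * l.a') (l.a * l.b' + l.a' * l.b) (2 * l.b * l.b')
    (2 * Q * Q) (2 * Q * l.k) (2 * l.k * l.k) (2 * Q * Q * (l.L00 * l.b' + l.L10 * l.b))
    (l.M0 * l.b' + l.M1 * l.b)) &&
  zlin W m f.nw outs (f.scl (2 * l.a * l.a') (l.a * l.b' + l.a' * l.b) (2 * l.b * l.b')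
    (2 * Q * Q) (Q * (l.k + l.k')) (2 * l.k * l.k')
    (Q * Q * ((l.L00 + l.L01) * l.b' + (l.L10 + l.L11) * l.b))
    (l.M0 * l.b' + l.M1 * l.b)) &&
  zlin W m f.nw outs (f.scl (2 * l.a * l.a') (l.a * l.b' + l.a' * l.b) (2 * l.b * l.b')
    (2 * Q * Q) (2 * Q * l.k') (2 * l.k' * l.k') (2 * Q * Q * (l.L01 * l.b' + l.L11 * l.b))
    (l.M0 * l.b' + l.M1 * l.b)) &&
  zsyl (f.F.β + 1) (2 ^ f.F.β) ((f.F.D + 1) * (f.F.E + 1)) W m f.nw outs (f.l6 l.a l.b l.k l.L00 l.N0) &&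
  zsyl (f.F.β + 1) (2 ^ f.F.β) ((f.F.D + 1) * (f.F.E + 1)) W m f.nw outs (f.l6 l.a l.b l.k' l.L01 l.N0) &&
  zsyl (f.F.β + 1) (2 ^ f.F.β) ((f.F.D + 1) * (f.F.E + 1)) W m f.nw outs (f.l6 l.a' l.b' l.k l.L10 l.N1) &&
  zsyl (f.F.β + 1) (2 ^ f.F.β) ((f.F.D + 1) * (f.F.E + 1)) W m f.nw outs (f.l6 l.a' l.b' l.k' l.L11 l.N1) && f.relE W m outs l

theorem leafE5_sound (f : LF4) (hV : f.Valid5) (h : f.F.okC c = true) (l : LD)
    (hL : 0 ≤ l.L00 ∧ 0 ≤ l.L01 ∧ 0 ≤ l.L10 ∧ 0 ≤ l.L11 ∧ 0 ≤ l.M0 ∧ 0 ≤ l.M1 ∧ 0 ≤ l.N0 ∧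
      0 ≤ l.N1)
    (hl : f.leafE5 f.F.W f.F.msk (f.F.outs c) l = true) (x y : ℝ) (hxy : c.In x y)
    (s t u v p k : ℝ) (hs : 0 ≤ s) (ht : 0 ≤ t) (h1 : s * l.a + t * l.a' = 1)
    (hp : s * l.b + t * l.b' = p) (hu : 0 ≤ u) (hv : 0 ≤ v) (huv : u + v = 1)
    (hk : u * l.k + v * l.k' = f.kq * k) :
    ∃ lam mu nu : ℝ, 0 ≤ lam ∧ 0 ≤ mu ∧ 0 ≤ nu ∧
      (∀ X Y Z, 0 ≤ f.I.form (valsAt f.F x y) 1 p k lam nu X Y Z) ∧
      0 ≤ f.I.sc (valsAt f.F x y) p k lam mu ∧ 0 ≤ f.I.rel (valsAt f.F x y) k lam mu nu := by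
  obtain ⟨hkq, hld, hpq, hce, hF, hw⟩ := hV
  obtain ⟨hL00, hL01, hL10, hL11, hM0, hM1, hN0, hN1⟩ := hL
  unfold leafE5 relE at hl
  simp only [Bool.and_eq_true] at hl
  obtain ⟨⟨⟨⟨⟨⟨⟨⟨⟨⟨⟨⟨⟨g1, g2⟩, g3⟩, g4⟩, g5⟩, g6⟩, g7⟩, g8⟩, g9⟩, g10⟩, g11⟩, g12⟩, g13⟩,
    ⟨⟨⟨⟨r1, r2⟩, r3⟩, r4⟩, r5⟩, r6⟩ := hl
  have h1q : (0 : ℝ) < f.kq := by exact_mod_cast hkq
  have h2q : (0 : ℝ) < f.ld := by exact_mod_cast hld
  have lin := fun l hl => zlin_sound hF h hw l hl x y hxy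
  have mat := fun l hl => zsyl_sound hF h hw l hl x y hxy
  have M1 := mat _ g10
  have M2 := mat _ g11
  have M3 := mat _ g12
  have M4 := mat _ g13
  have q1 := lin _ g1
  have q2 := lin _ g2
  have q3 := lin _ g3
  have q4 := lin _ g4
  have q5 := lin _ g5
  have q6 := lin _ g6
  have q7 := lin _ g7
  have q8 := lin _ g8
  have q9 := lin _ g9
  rw [scl_val] at q1 q2 q3 q4 q5 q6 q7 q8 q9
  have R1 := lin _ r1
  have R2 := lin _ r2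
  have R3 := lin _ r3
  have R4 := lin _ r4
  have R5 := lin _ r5
  have R6 := lin _ r6
  rw [rel_val] at R1 R2 R3 R4 R5 R6
  clear g1 g2 g3 g4 g5 g6 g7 g8 g9 g10 g11 g12 g13 lin mat r1 r2 r3 r4 r5 r6
  set w := valsAt f.F x y
  have hk' : k = (u * l.k + v * l.k') / f.kq := by rw [hk]; field_simp
  -- the multipliers
  set lam : ℝ := s * (u * (l.L00 / f.ld) + v * (l.L01 / f.ld))
    + t * (u * (l.L10 / f.ld) + v * (l.L11 / f.ld)) with hlam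
  set mu : ℝ := s * (l.M0 / f.ld) + t * (l.M1 / f.ld) with hmu
  set nu : ℝ := s * (l.N0 / f.ld) + t * (l.N1 / f.ld) with hnu
  have c1 : (0 : ℝ) ≤ l.L00 := by exact_mod_cast hL00
  have c2 : (0 : ℝ) ≤ l.L01 := by exact_mod_cast hL01
  have c3 : (0 : ℝ) ≤ l.L10 := by exact_mod_cast hL10
  have c4 : (0 : ℝ) ≤ l.L11 := by exact_mod_cast hL11
  have c5 : (0 : ℝ) ≤ l.M0 := by exact_mod_cast hM0
  have c6 : (0 : ℝ) ≤ l.M1 := by exact_mod_cast hM1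
  have c7 : (0 : ℝ) ≤ l.N0 := by exact_mod_cast hN0
  have c8 : (0 : ℝ) ≤ l.N1 := by exact_mod_cast hN1
  refine ⟨lam, mu, nu, by positivity, by positivity, by positivity, ?_, ?_, ?_⟩
  · intro X Y Z
    have key : ∀ (a b k L M : ℤ), 0 ≤ (f.l6 a b k L M).form w X Y Z →
        0 ≤ f.I.form w a b (k / f.kq) (L / f.ld) (M / f.ld) X Y Z := by
      intro a b k L M h0
      rw [l6_form f w hkq hld] at h0
      exact nonneg_of_mul_nonneg_right h0 (by positivity)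
    have n1 := key _ _ _ _ _ (M1 X Y Z)
    have n2 := key _ _ _ _ _ (M2 X Y Z)
    have n3 := key _ _ _ _ _ (M3 X Y Z)
    have n4 := key _ _ _ _ _ (M4 X Y Z)
    have ek : k = u * (l.k / f.kq) + v * (l.k' / f.kq) := by rw [hk']; field_simp
    have e := form_p f.I w l.a l.b l.a' l.b' s t k (u * (l.L00 / f.ld) + v * (l.L01 / f.ld))
      (u * (l.L10 / f.ld) + v * (l.L11 / f.ld)) (l.N0 / f.ld) (l.N1 / f.ld) X Y Z
    rw [h1, hp] at e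
    rw [hlam, hnu, e, ek, form_k f.I w _ _ _ _ u v _ _ _ X Y Z huv,
      form_k f.I w _ _ _ _ u v _ _ _ X Y Z huv]
    positivity
  · have key : 2 * f.kq ^ 2 * f.ld * f.I.sc w p k lam mu =
        s ^ 2 * u ^ 2 * (f.ld * ((l.a * l.a : ℤ) * ((2 * f.kq * f.kq : ℤ) * w f.I.z00 +
            (2 * f.kq * l.k : ℤ) * w f.I.z01 + (2 * l.k * l.k : ℤ) * w f.I.z02)
          + (l.a * l.b : ℤ) * ((2 * f.kq * f.kq : ℤ) * w f.I.z10 +
            (2 * f.kq * l.k : ℤ) * w f.I.z11 + (2 * l.k * l.k : ℤ) * w f.I.z12)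
          + (l.b * l.b : ℤ) * ((2 * f.kq * f.kq : ℤ) * w f.I.z20 +
            (2 * f.kq * l.k : ℤ) * w f.I.z21 + (2 * l.k * l.k : ℤ) * w f.I.z22))
          - (2 * f.kq * f.kq * (l.L00 * l.b) : ℤ) * w f.I.zl
          - (l.M0 * l.b : ℤ) * ((2 * f.kq * f.kq : ℤ) * w f.I.m0 + (2 * f.kq * l.k : ℤ) * w f.I.m1
            + (2 * l.k * l.k : ℤ) * w f.I.m2))
        + s ^ 2 * (2 * u * v) * (f.ld * ((l.a * l.a : ℤ) * ((2 * f.kq * f.kq : ℤ) * w f.I.z00 +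
            (f.kq * (l.k + l.k') : ℤ) * w f.I.z01 + (2 * l.k * l.k' : ℤ) * w f.I.z02)
          + (l.a * l.b : ℤ) * ((2 * f.kq * f.kq : ℤ) * w f.I.z10 +
            (f.kq * (l.k + l.k') : ℤ) * w f.I.z11 + (2 * l.k * l.k' : ℤ) * w f.I.z12)
          + (l.b * l.b : ℤ) * ((2 * f.kq * f.kq : ℤ) * w f.I.z20 +
            (f.kq * (l.k + l.k') : ℤ) * w f.I.z21 + (2 * l.k * l.k' : ℤ) * w f.I.z22))
          - (f.kq * f.kq * ((l.L00 + l.L01) * l.b) : ℤ) * w f.I.zl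
          - (l.M0 * l.b : ℤ) * ((2 * f.kq * f.kq : ℤ) * w f.I.m0 + (f.kq * (l.k + l.k') : ℤ) * w f.I.m1
            + (2 * l.k * l.k' : ℤ) * w f.I.m2))
        + s ^ 2 * v ^ 2 * (f.ld * ((l.a * l.a : ℤ) * ((2 * f.kq * f.kq : ℤ) * w f.I.z00 +
            (2 * f.kq * l.k' : ℤ) * w f.I.z01 + (2 * l.k' * l.k' : ℤ) * w f.I.z02)
          + (l.a * l.b : ℤ) * ((2 * f.kq * f.kq : ℤ) * w f.I.z10 +
            (2 * f.kq * l.k' : ℤ) * w f.I.z11 + (2 * l.k' * l.k' : ℤ) * w f.I.z12)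
          + (l.b * l.b : ℤ) * ((2 * f.kq * f.kq : ℤ) * w f.I.z20 +
            (2 * f.kq * l.k' : ℤ) * w f.I.z21 + (2 * l.k' * l.k' : ℤ) * w f.I.z22))
          - (2 * f.kq * f.kq * (l.L01 * l.b) : ℤ) * w f.I.zl
          - (l.M0 * l.b : ℤ) * ((2 * f.kq * f.kq : ℤ) * w f.I.m0 + (2 * f.kq * l.k' : ℤ) * w f.I.m1
            + (2 * l.k' * l.k' : ℤ) * w f.I.m2))
        + t ^ 2 * u ^ 2 * (f.ld * ((l.a' * l.a' : ℤ) * ((2 * f.kq * f.kq : ℤ) * w f.I.z00 +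
            (2 * f.kq * l.k : ℤ) * w f.I.z01 + (2 * l.k * l.k : ℤ) * w f.I.z02)
          + (l.a' * l.b' : ℤ) * ((2 * f.kq * f.kq : ℤ) * w f.I.z10 +
            (2 * f.kq * l.k : ℤ) * w f.I.z11 + (2 * l.k * l.k : ℤ) * w f.I.z12)
          + (l.b' * l.b' : ℤ) * ((2 * f.kq * f.kq : ℤ) * w f.I.z20 +
            (2 * f.kq * l.k : ℤ) * w f.I.z21 + (2 * l.k * l.k : ℤ) * w f.I.z22))
          - (2 * f.kq * f.kq * (l.L10 * l.b') : ℤ) * w f.I.zl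
          - (l.M1 * l.b' : ℤ) * ((2 * f.kq * f.kq : ℤ) * w f.I.m0 + (2 * f.kq * l.k : ℤ) * w f.I.m1
            + (2 * l.k * l.k : ℤ) * w f.I.m2))
        + t ^ 2 * (2 * u * v) * (f.ld * ((l.a' * l.a' : ℤ) * ((2 * f.kq * f.kq : ℤ) * w f.I.z00 +
            (f.kq * (l.k + l.k') : ℤ) * w f.I.z01 + (2 * l.k * l.k' : ℤ) * w f.I.z02)
          + (l.a' * l.b' : ℤ) * ((2 * f.kq * f.kq : ℤ) * w f.I.z10 +
            (f.kq * (l.k + l.k') : ℤ) * w f.I.z11 + (2 * l.k * l.k' : ℤ) * w f.I.z12)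
          + (l.b' * l.b' : ℤ) * ((2 * f.kq * f.kq : ℤ) * w f.I.z20 +
            (f.kq * (l.k + l.k') : ℤ) * w f.I.z21 + (2 * l.k * l.k' : ℤ) * w f.I.z22))
          - (f.kq * f.kq * ((l.L10 + l.L11) * l.b') : ℤ) * w f.I.zl
          - (l.M1 * l.b' : ℤ) * ((2 * f.kq * f.kq : ℤ) * w f.I.m0 + (f.kq * (l.k + l.k') : ℤ) * w f.I.m1
            + (2 * l.k * l.k' : ℤ) * w f.I.m2))
        + t ^ 2 * v ^ 2 * (f.ld * ((l.a' * l.a' : ℤ) * ((2 * f.kq * f.kq : ℤ) * w f.I.z00 +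
            (2 * f.kq * l.k' : ℤ) * w f.I.z01 + (2 * l.k' * l.k' : ℤ) * w f.I.z02)
          + (l.a' * l.b' : ℤ) * ((2 * f.kq * f.kq : ℤ) * w f.I.z10 +
            (2 * f.kq * l.k' : ℤ) * w f.I.z11 + (2 * l.k' * l.k' : ℤ) * w f.I.z12)
          + (l.b' * l.b' : ℤ) * ((2 * f.kq * f.kq : ℤ) * w f.I.z20 +
            (2 * f.kq * l.k' : ℤ) * w f.I.z21 + (2 * l.k' * l.k' : ℤ) * w f.I.z22))
          - (2 * f.kq * f.kq * (l.L11 * l.b') : ℤ) * w f.I.zl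
          - (l.M1 * l.b' : ℤ) * ((2 * f.kq * f.kq : ℤ) * w f.I.m0 + (2 * f.kq * l.k' : ℤ) * w f.I.m1
            + (2 * l.k' * l.k' : ℤ) * w f.I.m2))
        + s * t * u ^ 2 * (f.ld * ((2 * l.a * l.a' : ℤ) * ((2 * f.kq * f.kq : ℤ) * w f.I.z00 +
            (2 * f.kq * l.k : ℤ) * w f.I.z01 + (2 * l.k * l.k : ℤ) * w f.I.z02)
          + (l.a * l.b' + l.a' * l.b : ℤ) * ((2 * f.kq * f.kq : ℤ) * w f.I.z10 +
            (2 * f.kq * l.k : ℤ) * w f.I.z11 + (2 * l.k * l.k : ℤ) * w f.I.z12)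
          + (2 * l.b * l.b' : ℤ) * ((2 * f.kq * f.kq : ℤ) * w f.I.z20 +
            (2 * f.kq * l.k : ℤ) * w f.I.z21 + (2 * l.k * l.k : ℤ) * w f.I.z22))
          - (2 * f.kq * f.kq * (l.L00 * l.b' + l.L10 * l.b) : ℤ) * w f.I.zl
          - (l.M0 * l.b' + l.M1 * l.b : ℤ) * ((2 * f.kq * f.kq : ℤ) * w f.I.m0 + (2 * f.kq * l.k : ℤ) * w f.I.m1
            + (2 * l.k * l.k : ℤ) * w f.I.m2))
        + s * t * (2 * u * v) * (f.ld * ((2 * l.a * l.a' : ℤ) * ((2 * f.kq * f.kq : ℤ) * w f.I.z00 +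
            (f.kq * (l.k + l.k') : ℤ) * w f.I.z01 + (2 * l.k * l.k' : ℤ) * w f.I.z02)
          + (l.a * l.b' + l.a' * l.b : ℤ) * ((2 * f.kq * f.kq : ℤ) * w f.I.z10 +
            (f.kq * (l.k + l.k') : ℤ) * w f.I.z11 + (2 * l.k * l.k' : ℤ) * w f.I.z12)
          + (2 * l.b * l.b' : ℤ) * ((2 * f.kq * f.kq : ℤ) * w f.I.z20 +
            (f.kq * (l.k + l.k') : ℤ) * w f.I.z21 + (2 * l.k * l.k' : ℤ) * w f.I.z22))
          - (f.kq * f.kq * ((l.L00 + l.L01) * l.b' + (l.L10 + l.L11) * l.b) : ℤ) * w f.I.zl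
          - (l.M0 * l.b' + l.M1 * l.b : ℤ) * ((2 * f.kq * f.kq : ℤ) * w f.I.m0 + (f.kq * (l.k + l.k') : ℤ) * w f.I.m1
            + (2 * l.k * l.k' : ℤ) * w f.I.m2))
        + s * t * v ^ 2 * (f.ld * ((2 * l.a * l.a' : ℤ) * ((2 * f.kq * f.kq : ℤ) * w f.I.z00 +
            (2 * f.kq * l.k' : ℤ) * w f.I.z01 + (2 * l.k' * l.k' : ℤ) * w f.I.z02)
          + (l.a * l.b' + l.a' * l.b : ℤ) * ((2 * f.kq * f.kq : ℤ) * w f.I.z10 +
            (2 * f.kq * l.k' : ℤ) * w f.I.z11 + (2 * l.k' * l.k' : ℤ) * w f.I.z12)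
          + (2 * l.b * l.b' : ℤ) * ((2 * f.kq * f.kq : ℤ) * w f.I.z20 +
            (2 * f.kq * l.k' : ℤ) * w f.I.z21 + (2 * l.k' * l.k' : ℤ) * w f.I.z22))
          - (2 * f.kq * f.kq * (l.L01 * l.b' + l.L11 * l.b) : ℤ) * w f.I.zl
          - (l.M0 * l.b' + l.M1 * l.b : ℤ) * ((2 * f.kq * f.kq : ℤ) * w f.I.m0 + (2 * f.kq * l.k' : ℤ) * w f.I.m1
            + (2 * l.k' * l.k' : ℤ) * w f.I.m2)) := by
      have hsc : f.I.sc w p k lam mu =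
          ((s * l.a + t * l.a') ^ 2 * ((u + v) ^ 2 * w f.I.z00 + (u + v) * k * w f.I.z01
            + k ^ 2 * w f.I.z02)
          + (s * l.a + t * l.a') * p * ((u + v) ^ 2 * w f.I.z10 + (u + v) * k * w f.I.z11
            + k ^ 2 * w f.I.z12)
          + p ^ 2 * ((u + v) ^ 2 * w f.I.z20 + (u + v) * k * w f.I.z21 + k ^ 2 * w f.I.z22)
          - (u + v) * lam * p * w f.I.zl - mu * p * ((u + v) ^ 2 * w f.I.m0
            + (u + v) * k * w f.I.m1 + k ^ 2 * w f.I.m2)) := by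
        rw [h1, huv]; unfold Idx4.sc; ring
      rw [hsc, hk', ← hp, hlam, hmu]
      push_cast
      field_simp
      ring
    have hpos : 0 ≤ 2 * (f.kq : ℝ) ^ 2 * f.ld * f.I.sc w p k lam mu := by
      rw [key]
      positivity
    exact nonneg_of_mul_nonneg_right hpos (by positivity)
  · have key : 2 * f.kq ^ 2 * f.ld * f.I.rel w k lam mu nu =
        s * u ^ 2 * ((2 * f.kq * f.kq * l.L00 : ℤ) * w f.I.r0 + (l.M0 - l.N0 : ℤ) *
            ((2 * f.kq * f.kq : ℤ) * w f.I.s0 + (2 * f.kq * l.k : ℤ) * w f.I.s1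
              + (2 * l.k * l.k : ℤ) * w f.I.s2))
        + s * (2 * u * v) * ((f.kq * f.kq * (l.L00 + l.L01) : ℤ) * w f.I.r0
            + (l.M0 - l.N0 : ℤ) *
            ((2 * f.kq * f.kq : ℤ) * w f.I.s0 + (f.kq * (l.k + l.k') : ℤ) * w f.I.s1
              + (2 * l.k * l.k' : ℤ) * w f.I.s2))
        + s * v ^ 2 * ((2 * f.kq * f.kq * l.L01 : ℤ) * w f.I.r0 + (l.M0 - l.N0 : ℤ) *
            ((2 * f.kq * f.kq : ℤ) * w f.I.s0 + (2 * f.kq * l.k' : ℤ) * w f.I.s1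
              + (2 * l.k' * l.k' : ℤ) * w f.I.s2))
        + t * u ^ 2 * ((2 * f.kq * f.kq * l.L10 : ℤ) * w f.I.r0 + (l.M1 - l.N1 : ℤ) *
            ((2 * f.kq * f.kq : ℤ) * w f.I.s0 + (2 * f.kq * l.k : ℤ) * w f.I.s1
              + (2 * l.k * l.k : ℤ) * w f.I.s2))
        + t * (2 * u * v) * ((f.kq * f.kq * (l.L10 + l.L11) : ℤ) * w f.I.r0
            + (l.M1 - l.N1 : ℤ) *
            ((2 * f.kq * f.kq : ℤ) * w f.I.s0 + (f.kq * (l.k + l.k') : ℤ) * w f.I.s1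
              + (2 * l.k * l.k' : ℤ) * w f.I.s2))
        + t * v ^ 2 * ((2 * f.kq * f.kq * l.L11 : ℤ) * w f.I.r0 + (l.M1 - l.N1 : ℤ) *
            ((2 * f.kq * f.kq : ℤ) * w f.I.s0 + (2 * f.kq * l.k' : ℤ) * w f.I.s1
              + (2 * l.k' * l.k' : ℤ) * w f.I.s2)) := by
      have hsc : f.I.rel w k lam mu nu =
          (u + v) * lam * w f.I.r0 + (mu - nu) * ((u + v) ^ 2 * w f.I.s0
            + (u + v) * k * w f.I.s1 + k ^ 2 * w f.I.s2) := by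
        rw [huv]; unfold Idx4.rel; ring
      rw [hsc, hk', hlam, hmu, hnu]
      push_cast
      field_simp
      ring
    have hpos : 0 ≤ 2 * (f.kq : ℝ) ^ 2 * f.ld * f.I.rel w k lam mu nu := by
      rw [key]
      positivity
    exact nonneg_of_mul_nonneg_right hpos (by positivity)

theorem exclE5_sound (f : LF4) (hV : f.Valid5) (h : f.F.okC c = true) (a b a' b' k0 k1 : ℤ)
    (i : ℕ × ℕ × ℕ)
    (hl : f.exclE f.F.W f.F.msk (f.F.outs c) a b a' b' k0 k1 i = true) (x y : ℝ)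
    (hxy : c.In x y) (hone : valsAt f.F x y f.I.one = 1)
    (s t u v p k : ℝ) (hs : 0 ≤ s) (ht : 0 ≤ t) (h1 : s * a + t * a' = 1)
    (hp : s * b + t * b' = p) (hu : 0 ≤ u) (hv : 0 ≤ v) (huv : u + v = 1)
    (hk : u * k0 + v * k1 = f.kq * k) :
    valsAt f.F x y i.1 + p * valsAt f.F x y i.2.1 + k * valsAt f.F x y i.2.2 < 0 := by
  obtain ⟨hkq, hld, hpq, hce, hF, hw⟩ := hV
  unfold exclE at hl
  simp only [Bool.and_eq_true] at hl
  obtain ⟨⟨⟨g1, g2⟩, g3⟩, g4⟩ := hl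
  have h1q : (0 : ℝ) < f.kq := by exact_mod_cast hkq
  have h2q : (0 : ℝ) < f.ce := by exact_mod_cast hce
  have lin := fun l hl => zlin_sound hF h hw l hl x y hxy
  have q1 := lin _ g1
  have q2 := lin _ g2
  have q3 := lin _ g3
  have q4 := lin _ g4
  rw [exl_val, hone] at q1 q2 q3 q4
  set w := valsAt f.F x y
  have e : f.kq * f.ce * (w i.1 + p * w i.2.1 + k * w i.2.2) + 1 =
      -(s * u * (-(f.ce * (f.kq * a * w i.1 + f.kq * b * w i.2.1 + a * k0 * w i.2.2)) - a * 1)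
      + s * v * (-(f.ce * (f.kq * a * w i.1 + f.kq * b * w i.2.1 + a * k1 * w i.2.2)) - a * 1)
      + t * u * (-(f.ce * (f.kq * a' * w i.1 + f.kq * b' * w i.2.1 + a' * k0 * w i.2.2)) - a' * 1)
      + t * v * (-(f.ce * (f.kq * a' * w i.1 + f.kq * b' * w i.2.1 + a' * k1 * w i.2.2))
        - a' * 1)) := by
    have e1 : f.kq * f.ce * (w i.1 + p * w i.2.1 + k * w i.2.2) + 1 =
      f.kq * f.ce * ((s * a + t * a') * (u + v) * w i.1 + p * (u + v) * w i.2.1) +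
        f.ce * (s * a + t * a') * (f.kq * k) * w i.2.2 + (s * a + t * a') * (u + v) := by
      rw [h1, huv]; ring
    rw [e1, ← hk, ← hp]
    ring
  have h5 : f.kq * f.ce * (w i.1 + p * w i.2.1 + k * w i.2.2) + 1 ≤ 0 := by
    rw [e]
    have : 0 ≤ s * u * (-(f.ce * (f.kq * a * w i.1 + f.kq * b * w i.2.1 + a * k0 * w i.2.2))
        - a * 1)
      + s * v * (-(f.ce * (f.kq * a * w i.1 + f.kq * b * w i.2.1 + a * k1 * w i.2.2)) - a * 1)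
      + t * u * (-(f.ce * (f.kq * a' * w i.1 + f.kq * b' * w i.2.1 + a' * k0 * w i.2.2)) - a' * 1)
      + t * v * (-(f.ce * (f.kq * a' * w i.1 + f.kq * b' * w i.2.1 + a' * k1 * w i.2.2))
        - a' * 1) := by positivity
    linarith
  have h6 : 0 < (f.kq : ℝ) * f.ce := by positivity
  by_contra hc
  push Not at hc
  have := mul_nonneg h6.le hc
  linarith

/-- the whole leaf. Digit 0: type (0 = exclusion by the constraint given by digit 1, otherwise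
normal); digits 1-4: `L00 L01 L10 L11`; digits 5, 6: `M0 M1`; digits 7, 8: `N0 N1`; then the four
matrices `T`. -/
noncomputable def leafOK5 (f : LF4) (b : Box4) (d : ℕ) : Bool :=
  f.F.okC (b.cell f.xq f.yq) && decide (b.ka < b.kb) &&
  ((Nat.beq (dg f.kb d 0) 0 && Nat.blt (dg f.kb d 1) f.I.cons.length &&
    f.exclE f.F.W f.F.msk (f.F.outs (b.cell f.xq f.yq)) f.pq b.pa (f.ea b) (eb b) b.ka b.kb
      (f.I.cons.getD (dg f.kb d 1) (0, 0, 0))) ||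
    (Nat.beq (dg f.kb d 0) 1 &&
    f.leafE5 f.F.W f.F.msk (f.F.outs (b.cell f.xq f.yq)) (f.ldOf b d)))

theorem leafOK5_sound (f : LF4) (hV : f.Valid5) (hone : ∀ x y, valsAt f.F x y f.I.one = 1)
    (b : Box4) (d : ℕ) (h : f.leafOK5 b d = true) (x y p k : ℝ)
    (hb : b.In f.xq f.yq f.pq f.kq x y p k) : f.I.Good (valsAt f.F x y) p k := by
  have hV' := hV
  obtain ⟨hkq, hld, hpq, hce, -, -⟩ := hV'
  unfold leafOK5 at h
  rw [Bool.and_eq_true, Bool.and_eq_true, decide_eq_true_eq, Bool.or_eq_true] at h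
  obtain ⟨⟨h1, h2⟩, h4⟩ := h
  obtain ⟨hx1, hx2, hy1, hy2, hp1, hp2, hk1, hk2⟩ := id hb
  obtain ⟨u, v, hu, hv, huv, hk⟩ := weights_k f b h2 k hk1 hk2
  obtain ⟨s, t, hs, ht, hs1, hsp⟩ := weights_p f hpq b p hp1 hp2
  intro hcons
  rcases h4 with h4 | h4
  · rw [Bool.and_eq_true, Bool.and_eq_true, Nat.blt_eq] at h4
    obtain ⟨⟨-, h5⟩, h6⟩ := h4
    have hm : f.I.cons.getD (dg f.kb d 1) (0, 0, 0) ∈ f.I.cons := by
      rw [List.getD_eq_getElem _ _ h5]; exact List.getElem_mem h5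
    have := exclE5_sound f hV h1 f.pq b.pa (f.ea b) (eb b) b.ka b.kb _ h6 x y hb.cell (hone x y)
      s t u v p k hs ht hs1 hsp hu hv huv hk
    exact absurd (hcons _ hm) (not_le.mpr this)
  · rw [Bool.and_eq_true] at h4
    exact leafE5_sound f hV h1 (f.ldOf b d)
      ⟨Int.natCast_nonneg _, Int.natCast_nonneg _, Int.natCast_nonneg _, Int.natCast_nonneg _,
        Int.natCast_nonneg _, Int.natCast_nonneg _, Int.natCast_nonneg _,
        Int.natCast_nonneg _⟩ h4.2 x y hb.cell s t u v p k hs ht hs1 hsp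
      hu hv huv hk

/-- **tree check** -/
theorem tree_sound5 (f : LF4) (hV : f.Valid5) (hone : ∀ x y, valsAt f.F x y f.I.one = 1)
    (t : Tr4) (b : Box4)
    (h : t.ok f.leafOK5 b = true) (x y p k : ℝ) (hb : b.In f.xq f.yq f.pq f.kq x y p k) :
    f.I.Good (valsAt f.F x y) p k :=
  Tr4.ok_sound f.leafOK5 (fun x y p k => f.I.Good (valsAt f.F x y) p k) f.xq f.yq f.pq f.kq
    (fun b d hl x y p k hin => leafOK5_sound f hV hone b d hl x y p k hin) t b h x y p k hb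

end LF4

end Vale.Agent.P211.H237
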