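import Vale.Agent.P211.H210.Close

set_option linter.all false

/-! P211 (helper210): positive sectional curvature excludes the product case. -/

namespace Vale.Agent.P211.Pos210

open scoped Manifold ContDiff
open Bundle Vale.Agent.P211.St Vale.Agent.P211.Final

variable {E : Type} [NormedAddCommGroup E] [NormedSpace ℝ E]
  {M : Type} [TopologicalSpace M] [ChartedSpace E M] [Mfd E M] [Metric E M]

theorem linInd_of_ortho {F : Fin 4 → Fld E M} {p : M} (h : Ortho F p) {i j : Fin 4} (hij : i ≠ j) :
    LinearIndependent ℝ ![F i p, F j p] := by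
  rw [LinearIndependent.pair_iff]
  intro s t hst
  have hii : inner ℝ (F i p) (F i p) = (1 : ℝ) := by
    have := (h i i).2; simpa [St.ip] using this
  have hjj : inner ℝ (F j p) (F j p) = (1 : ℝ) := by
    have := (h j j).2; simpa [St.ip] using this
  have hij' : inner ℝ (F i p) (F j p) = (0 : ℝ) := by
    have := (h i j).2; simpa [St.ip, hij] using this
  have hji' : inner ℝ (F j p) (F i p) = (0 : ℝ) := by
    have := (h j i).2; simpa [St.ip, hij.symm] using this
  constructor
  · have h1 : inner ℝ (F i p) (s • F i p + t • F j p) = (0 : ℝ) := by rw [hst, inner_zero_right]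
    rw [inner_add_right, inner_smul_right, inner_smul_right, hii, hij'] at h1
    linarith
  · have h1 : inner ℝ (F j p) (s • F i p + t • F j p) = (0 : ℝ) := by rw [hst, inner_zero_right]
    rw [inner_add_right, inner_smul_right, inner_smul_right, hjj, hji'] at h1
    linarith

/-- the product has a tangent plane of curvature zero -/
theorem not_pos_of_S2S2 [Nonempty M] {cov : Conn E M} {lam : ℝ} (h : LocallyS2S2 cov lam)
    (hK : ∀ (p : M) (X Y : Fld E M), Smooth X → Smooth Y → LinearIndependent ℝ ![X p, Y p] →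
      0 < Riem cov X Y Y X p) : False := by
  obtain ⟨p⟩ := ‹Nonempty M›
  obtain ⟨F, hF, hR⟩ := h.2 p
  have h1 := hK p (F 0) (F 2) (hF 0 0).1 (hF 2 0).1 (linInd_of_ortho hF (by decide))
  rw [hR (F 0) (F 2) (F 2) (F 0) (hF 0 0).1 (hF 2 0).1 (hF 2 0).1 (hF 0 0).1] at h1
  have e02 : St.ip (F 0) (F 2) p = 0 := by simpa using (hF 0 2).2
  have e01 : St.ip (F 0) (F 1) p = 0 := by simpa using (hF 0 1).2
  have e20 : St.ip (F 2) (F 0) p = 0 := by simpa using (hF 2 0).2
  have e21 : St.ip (F 2) (F 1) p = 0 := by simpa using (hF 2 1).2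
  have e03 : St.ip (F 0) (F 3) p = 0 := by simpa using (hF 0 3).2
  have e23 : St.ip (F 2) (F 3) p = 0 := by simpa using (hF 2 3).2
  simp only [St.dot, e02, e01, e20, e21, e03, e23] at h1
  simp at h1

end Vale.Agent.P211.Pos210
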