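import Vale.Agent.P211.Final.Statement
import Vale.Agent.P211.Bdl.B1

namespace Vale.Agent.P211.H210

open scoped Manifold ContDiff Topology
open Bundle VectorField Vale.Agent.P211 Vale.Agent.P211.St Vale.Agent.P211.Final

noncomputable section

section

variable {B : Type*} {E : B → Type*} [∀ b, TopologicalSpace (E b)] [∀ b, AddCommGroup (E b)]
  [∀ b, Module ℝ (E b)] [∀ b, IsTopologicalAddGroup (E b)] [∀ b, ContinuousConstSMul ℝ (E b)]

/-- The metric `c * g`. -/
def scaleG (c : ℝ) (hc : 0 < c) (g : RiemannianMetric E) : RiemannianMetric E where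
  inner b := c • g.inner b
  symm b v w := by simp [g.symm b v w]
  pos b v hv := by
    have := g.pos b v hv
    simpa using mul_pos hc this
  continuousAt b := by
    have := (g.continuousAt b).const_mul c
    simpa using this
  isVonNBounded b := by
    have h := g.isVonNBounded b
    obtain ⟨r, hr, hr2⟩ : ∃ r : ℝ, 0 < r ∧ r * r = c := ⟨Real.sqrt c, Real.sqrt_pos.2 hc,
      Real.mul_self_sqrt hc.le⟩
    have h2 := h.image (r⁻¹ • ContinuousLinearMap.id ℝ (E b))
    refine h2.subset ?_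
    intro v hv
    refine ⟨r • v, ?_, ?_⟩
    · have hv' : c * g.inner b v v < 1 := hv
      change g.inner b (r • v) (r • v) < 1
      rw [map_smul, map_smul]
      change r * (r * g.inner b v v) < 1
      rw [← mul_assoc, hr2]
      exact hv'
    · simp [smul_smul, hr.ne']

end

section

variable
  {EB : Type*} [NormedAddCommGroup EB] [NormedSpace ℝ EB]
  {HB : Type*} [TopologicalSpace HB] {IB : ModelWithCorners ℝ EB HB} {n n' : ℕ∞ω}
  {B : Type*} [TopologicalSpace B] [ChartedSpace HB B]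
  {F : Type*} [NormedAddCommGroup F] [NormedSpace ℝ F]
  {E : B → Type*} [TopologicalSpace (TotalSpace F E)]
  [∀ b, TopologicalSpace (E b)] [∀ b, AddCommGroup (E b)] [∀ b, Module ℝ (E b)]
  [∀ b, IsTopologicalAddGroup (E b)] [∀ b, ContinuousConstSMul ℝ (E b)]
  [FiberBundle F E] [VectorBundle ℝ F E]

theorem smooth_inner [m : RiemannianBundle E] [h : IsContMDiffRiemannianBundle IB n F E] :
    ContMDiff IB (IB.prod 𝓘(ℝ, F →L[ℝ] F →L[ℝ] ℝ)) n
      (fun b ↦ TotalSpace.mk' (F →L[ℝ] F →L[ℝ] ℝ) (E := fun b => E b →L[ℝ] E b →L[ℝ] ℝ) b (m.g.inner b)) := by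
  obtain ⟨g, hg, h2⟩ := h.exists_contMDiff
  have e : (fun b => (m.g.inner b : E b →L[ℝ] E b →L[ℝ] ℝ)) = g := by
    funext b
    ext v w
    exact h2 b v w
  rw [← e] at hg
  exact hg

theorem bundle_scaleG (c : ℝ) (hc : 0 < c) (m : RiemannianBundle E) [h : IsContMDiffRiemannianBundle IB n F E] :
    letI : RiemannianBundle E := ⟨scaleG c hc m.g⟩
    IsContMDiffRiemannianBundle IB n F E := by
  have h1 := smooth_inner (IB := IB) (n := n) (F := F) (E := E)
  have h2 := h1.const_smul_section (a := c)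
  letI : RiemannianBundle E := ⟨scaleG c hc m.g⟩
  exact ⟨⟨(scaleG c hc m.g).inner, h2, fun _ _ _ => rfl⟩⟩

end


section

variable {E : Type*} [NormedAddCommGroup E] [NormedSpace ℝ E]
  {M : Type*} [TopologicalSpace M] [ChartedSpace E M]

/-- The metric `c * g`. -/
abbrev scaleM (c : ℝ) (hc : 0 < c) (m : Metric E M) : Metric E M := ⟨scaleG c hc m.g⟩

theorem ip_scale (c : ℝ) (hc : 0 < c) (m : Metric E M) (X Y : Fld E M) (p : M) :
    @St.ip E _ _ M _ _ (scaleM c hc m) X Y p = c * @St.ip E _ _ M _ _ m X Y p := rfl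

variable [Mfd E M]

theorem riem_scale (c : ℝ) (hc : 0 < c) (m : Metric E M) (cov : Conn E M) (X Y Z W : Fld E M)
    (p : M) :
    @Riem E _ _ M _ _ _ (scaleM c hc m) cov X Y Z W p =
      c * @Riem E _ _ M _ _ _ m cov X Y Z W p := rfl

theorem smooth_smul {X : Fld E M} (a : ℝ) (h : Smooth X) : Smooth (a • X) :=
  ContMDiff.const_smul_section (a := a) h

theorem nab_smul_l (cov : Conn E M) (a : ℝ) (X Y : Fld E M) :
    nab cov (a • X) Y = a • nab cov X Y := by
  funext p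
  simp [nab]

section

variable [m : Metric E M]
  [IsContMDiffRiemannianBundle 𝓘(ℝ, E) ∞ E fun p : M => TangentSpace 𝓘(ℝ, E) p]
  [FiniteDimensional ℝ E] [T2Space M]

theorem riem_smul {cov : Conn E M} (h : IsLC cov) (a b c d : ℝ) {X Y Z W : Fld E M}
    (hX : Smooth X) (hY : Smooth Y) (hZ : Smooth Z) (hW : Smooth W) (p : M) :
    Riem cov (a • X) (b • Y) (c • Z) (d • W) p = a * b * c * d * Riem cov X Y Z W p := by
  have e : ∀ (a : ℝ) (X : Fld E M) (hX : Smooth X),
      a • X = ((algebraMap ℝ (SF E M) a • mkVF X hX : VF E M) : Fld E M) := fun _ _ _ => rfl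
  have e' : ∀ (X : Fld E M) (hX : Smooth X), X = (mkVF X hX : Fld E M) := fun _ _ => rfl
  rw [e a X hX, e b Y hY, e c Z hZ, e d W hW, riem_eq h, (lcOf h).isT4_Rm.smul1,
    (lcOf h).isT4_Rm.smul2, (lcOf h).isT4_Rm.smul3, (lcOf h).isT4_Rm.smul4]
  have e2 := congrFun (riem_eq h (mkVF X hX) (mkVF Y hY) (mkVF Z hZ) (mkVF W hW)) p
  change a * (b * (c * (d * (lcOf h).Rm (mkVF X hX) (mkVF Y hY) (mkVF Z hZ) (mkVF W hW) p))) = _
  rw [← e2]
  change _ = a * b * c * d * Riem cov (mkVF X hX) (mkVF Y hY) (mkVF Z hZ) (mkVF W hW) p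
  ring

theorem riem_dir {cov : Conn E M} (h : IsLC cov) (c : ℝ) {U X Y Z W : Fld E M}
    (hU : Smooth U) (hX : Smooth X) (hY : Smooth Y) (hZ : Smooth Z) (hW : Smooth W) (p : M) :
    mvfderiv 𝓘(ℝ, E) (fun q => c * Riem cov X Y Z W q) p (U p) =
      c * mvfderiv 𝓘(ℝ, E) (Riem cov X Y Z W) p (U p) := by
  have e2 := riem_eq h (mkVF X hX) (mkVF Y hY) (mkVF Z hZ) (mkVF W hW)
  change Riem cov X Y Z W = _ at e2
  have h1 := (lcOf h).D_mul (mkVF U hU) (algebraMap ℝ (SF E M) c)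
    ((lcOf h).Rm (mkVF X hX) (mkVF Y hY) (mkVF Z hZ) (mkVF W hW))
  rw [(lcOf h).D_const] at h1
  have h2 : DVF (mkVF U hU) (algebraMap ℝ (SF E M) c *
      (lcOf h).Rm (mkVF X hX) (mkVF Y hY) (mkVF Z hZ) (mkVF W hW)) p = _ :=
    congrArg (fun f : SF E M => f p) h1
  rw [e2]
  refine h2.trans ?_
  change 0 * _ + c * _ = _
  rw [zero_mul, zero_add]
  rfl

theorem ip_dir {X Y Z : Fld E M} (c : ℝ) (hX : Smooth X) (hY : Smooth Y) (hZ : Smooth Z) (p : M) :
    mvfderiv 𝓘(ℝ, E) (fun q => c * St.ip Y Z q) p (X p) =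
      c * mvfderiv 𝓘(ℝ, E) (St.ip Y Z) p (X p) := by
  have h1 := DVF_mul (mkVF X hX) (algebraMap ℝ (SF E M) c) (gVF (mkVF Y hY) (mkVF Z hZ))
  rw [DVF_const] at h1
  have h2 : DVF (mkVF X hX) (algebraMap ℝ (SF E M) c * gVF (mkVF Y hY) (mkVF Z hZ)) p = _ :=
    congrArg (fun f : SF E M => f p) h1
  refine h2.trans ?_
  change 0 * _ + c * _ = _
  rw [zero_mul, zero_add]
  rfl


end

section

variable (c : ℝ) (hc : 0 < c) (m : Metric E M)

theorem ip_smul (a b : ℝ) (X Y : Fld E M) (p : M) :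
    St.ip (a • X) (b • Y) p = a * b * St.ip X Y p := by
  change inner ℝ (a • X p) (b • Y p) = a * b * inner ℝ (X p) (Y p)
  rw [real_inner_smul_left, real_inner_smul_right]
  ring

theorem ortho_of_scale {F : Fin 4 → Fld E M} {p : M}
    (hF : @Ortho E _ _ M _ _ _ (scaleM c hc m) F p) :
    Ortho (fun i => Real.sqrt c • F i) p := by
  intro i j
  refine ⟨smooth_smul _ (hF i j).1, ?_⟩
  have h := (hF i j).2
  rw [ip_scale] at h
  rw [ip_smul, Real.mul_self_sqrt hc.le]
  exact h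

theorem ortho_scale {F : Fin 4 → Fld E M} {p : M} (hF : Ortho F p) :
    @Ortho E _ _ M _ _ _ (scaleM c hc m) (fun i => (Real.sqrt c)⁻¹ • F i) p := by
  intro i j
  refine ⟨smooth_smul _ (hF i j).1, ?_⟩
  have h := (hF i j).2
  rw [ip_scale, ip_smul, ← mul_inv, Real.mul_self_sqrt hc.le, ← mul_assoc, mul_inv_cancel₀ hc.ne',
    one_mul]
  exact h

end

section

variable (c : ℝ) (hc : 0 < c) [m : Metric E M]
  [hb : IsContMDiffRiemannianBundle 𝓘(ℝ, E) ∞ E fun p : M => TangentSpace 𝓘(ℝ, E) p]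
  [FiniteDimensional ℝ E] [T2Space M] {cov : Conn E M}

theorem levi_scale (h : IsLeviCivita cov) :
    @IsLeviCivita E _ _ M _ _ _ (scaleM c hc m) cov := by
  refine ⟨h.1, h.2.1, ?_⟩
  intro X Y Z hX hY hZ p
  have h1 := h.2.2 X Y Z hX hY hZ p
  have h2 := ip_dir c hX hY hZ p
  rw [ip_scale, ip_scale]
  refine (h2.trans ?_)
  rw [h1]
  ring

theorem einstein_scale (h : IsLeviCivita cov) {lam : ℝ} (hE : IsEinstein cov lam) :
    @IsEinstein E _ _ M _ _ _ (scaleM c hc m) cov (lam / c) := by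
  intro p F hF Y Z hY hZ
  have h1 := hE p _ (ortho_of_scale c hc m hF) Y Z hY hZ
  have hl := isLC_of h
  have h2 : ∀ i, Riem cov (Real.sqrt c • F i) Y Z (Real.sqrt c • F i) p =
      @Riem E _ _ M _ _ _ (scaleM c hc m) cov (F i) Y Z (F i) p := by
    intro i
    have h3 := riem_smul hl (Real.sqrt c) 1 1 (Real.sqrt c) (hF i i).1 hY hZ (hF i i).1 p
    rw [one_smul, one_smul] at h3
    rw [h3, riem_scale]
    have := Real.mul_self_sqrt hc.le
    rw [show Real.sqrt c * 1 * 1 * Real.sqrt c = Real.sqrt c * Real.sqrt c by ring, this]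
  rw [Finset.sum_congr rfl fun i _ => h2 i] at h1
  rw [h1, ip_scale]
  field_simp

theorem sec_scale (h : SecNonneg cov) : @SecNonneg E _ _ M _ _ _ (scaleM c hc m) cov := by
  intro p X Y hX hY
  rw [riem_scale]
  exact mul_nonneg hc.le (h p X Y hX hY)

theorem orient_scale {om : (p : M) → TangentSpace 𝓘(ℝ, E) p [⋀^Fin 4]→ₗ[ℝ] ℝ}
    (h : IsOrientation om) :
    @IsOrientation E _ _ M _ _ _ (scaleM c hc m) fun p => c ^ 2 • om p := by
  refine ⟨fun F hF => ?_, fun p F hF => ?_⟩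
  · have h1 := h.1 F hF
    exact contMDiff_const.mul h1
  · have h1 := h.2 p _ (ortho_of_scale c hc m hF)
    have h2 : val om (fun i => Real.sqrt c • F i) p =
        val (fun p => c ^ 2 • om p) F p := by
      change om p (fun i => Real.sqrt c • F i p) = c ^ 2 • om p (fun i => F i p)
      rw [AlternatingMap.map_smul_univ]
      simp only [Finset.prod_const, Finset.card_univ, Fintype.card_fin]
      congr 1
      rw [show (4 : ℕ) = 2 * 2 by norm_num, pow_mul, Real.sq_sqrt hc.le]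
    rw [← h2]
    exact h1

theorem halfFlat_of_scale (hl : IsLeviCivita cov) {lam s : ℝ}
    {om : (p : M) → TangentSpace 𝓘(ℝ, E) p [⋀^Fin 4]→ₗ[ℝ] ℝ}
    (h : @HalfFlat E _ _ M _ _ _ (scaleM c hc m) cov (lam / c) (fun p => c ^ 2 • om p) s) :
    HalfFlat cov lam om s := by
  intro p F hF hv i j
  have hlc := isLC_of hl
  have h1 := h p _ (ortho_scale c hc m hF) (by
    rw [← hv]
    change c ^ 2 • om p (fun i => (Real.sqrt c)⁻¹ • F i p) = om p (fun i => F i p)
    rw [AlternatingMap.map_smul_univ]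
    simp only [Finset.prod_const, Finset.card_univ, Fintype.card_fin, smul_eq_mul]
    have h4 : c ^ 2 * (Real.sqrt c)⁻¹ ^ 4 = 1 := by
      have : (Real.sqrt c) ^ 4 = c ^ 2 := by
        rw [show (4 : ℕ) = 2 * 2 by norm_num, pow_mul, Real.sq_sqrt hc.le]
      rw [inv_pow, this, mul_inv_cancel₀ (pow_ne_zero 2 hc.ne')]
    rw [← mul_assoc, h4, one_mul]) i j
  have hs := fun k => (hF k k).1
  have h3 : ∀ a b d e : Fin 4, @Riem E _ _ M _ _ _ (scaleM c hc m) cov ((Real.sqrt c)⁻¹ • F a)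
      ((Real.sqrt c)⁻¹ • F b) ((Real.sqrt c)⁻¹ • F d) ((Real.sqrt c)⁻¹ • F e) p =
      c⁻¹ * Riem cov (F a) (F b) (F d) (F e) p := by
    intro a b d e
    rw [riem_scale, riem_smul hlc _ _ _ _ (hs a) (hs b) (hs d) (hs e)]
    have : (Real.sqrt c)⁻¹ * (Real.sqrt c)⁻¹ = c⁻¹ := by rw [← mul_inv, Real.mul_self_sqrt hc.le]
    calc _ = c * (((Real.sqrt c)⁻¹ * (Real.sqrt c)⁻¹) * ((Real.sqrt c)⁻¹ * (Real.sqrt c)⁻¹)) *
          Riem cov (F a) (F b) (F d) (F e) p := by ring
      _ = _ := by rw [this]; field_simp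
  unfold Final.SD at h1 ⊢
  rw [h3, h3, h3, h3] at h1
  have h4 : (Riem cov (F 0) (F i.succ) (F j.succ) (F 0) p +
    Riem cov (F 0) (F i.succ) (F (j + 2).succ) (F (j + 1).succ) p +
    Riem cov (F (i + 1).succ) (F (i + 2).succ) (F j.succ) (F 0) p +
    Riem cov (F (i + 1).succ) (F (i + 2).succ) (F (j + 2).succ) (F (j + 1).succ) p) / 2 =
      c * ((c⁻¹ * Riem cov (F 0) (F i.succ) (F j.succ) (F 0) p +
    c⁻¹ * Riem cov (F 0) (F i.succ) (F (j + 2).succ) (F (j + 1).succ) p +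
    c⁻¹ * Riem cov (F (i + 1).succ) (F (i + 2).succ) (F j.succ) (F 0) p +
    c⁻¹ * Riem cov (F (i + 1).succ) (F (i + 2).succ) (F (j + 2).succ) (F (j + 1).succ) p) / 2) := by
    field_simp
  rw [h4, h1]
  split_ifs
  · field_simp
  · simp

theorem s2s2_of_scale (hl : IsLeviCivita cov) {lam : ℝ}
    (h : @LocallyS2S2 E _ _ M _ _ _ (scaleM c hc m) cov (lam / c)) : LocallyS2S2 cov lam := by
  have hlc := isLC_of hl
  refine ⟨fun p U X Y Z W hU hX hY hZ hW => ?_, fun p => ?_⟩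
  · have h1 := h.1 p U X Y Z W hU hX hY hZ hW
    have h2 : @dRiem E _ _ M _ _ _ (scaleM c hc m) cov U X Y Z W p =
        c * dRiem cov U X Y Z W p := by
      have h3 := riem_dir hlc c hU hX hY hZ hW p
      unfold dRiem
      rw [riem_scale, riem_scale, riem_scale, riem_scale]
      have h4 : mvfderiv 𝓘(ℝ, E) (@Riem E _ _ M _ _ _ (scaleM c hc m) cov X Y Z W) p (U p) =
        c * mvfderiv 𝓘(ℝ, E) (Riem cov X Y Z W) p (U p) := h3
      rw [h4]
      ring
    rw [h2] at h1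
    exact (mul_eq_zero.1 h1).resolve_left hc.ne'
  · obtain ⟨F, hF, h1⟩ := h.2 p
    refine ⟨_, ortho_of_scale c hc m hF, fun X Y Z W hX hY hZ hW => ?_⟩
    have h2 := h1 X Y Z W hX hY hZ hW
    rw [riem_scale] at h2
    have hr := Real.mul_self_sqrt hc.le
    have h3 : ∀ (A B : Fld E M) (i j : Fin 4), @dot E _ _ M _ _ (scaleM c hc m) A B (F i) (F j) p =
        c * dot A B (Real.sqrt c • F i) (Real.sqrt c • F j) p := by
      intro A B i j
      unfold dot
      have e : ∀ (A B : Fld E M), St.ip A (Real.sqrt c • B) p = Real.sqrt c * St.ip A B p := by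
        intro A B
        have := ip_smul m 1 (Real.sqrt c) A B p
        rwa [one_smul, one_mul] at this
      rw [ip_scale, ip_scale, ip_scale, ip_scale, e, e, e, e]
      have : ∀ x y z w : ℝ, c * x * (c * y) - c * z * (c * w) = c *
          (Real.sqrt c * x * (Real.sqrt c * y) - Real.sqrt c * z * (Real.sqrt c * w)) := by
        intro x y z w
        linear_combination (-c * x * y + c * z * w) * hr
      rw [this]
    rw [h3, h3, h3, h3] at h2
    have h4 : Riem cov X Y Z W p = c⁻¹ * (c * Riem cov X Y Z W p) := by field_simp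
    rw [h4, h2]
    field_simp

end

end

end

/-- The target for `lam = 3`. -/
def Target3 : Prop :=
  ∀ {E : Type} [NormedAddCommGroup E] [NormedSpace ℝ E] [FiniteDimensional ℝ E],
    Module.finrank ℝ E = 4 →
    ∀ {M : Type} [TopologicalSpace M] [T2Space M] [ChartedSpace E M] [Mfd E M] [CompactSpace M]
      [ConnectedSpace M] [Metric E M]
      [IsContMDiffRiemannianBundle 𝓘(ℝ, E) ∞ E fun p : M => TangentSpace 𝓘(ℝ, E) p]
      (cov : Conn E M), IsLeviCivita cov → IsEinstein cov 3 → SecNonneg cov →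
    ∀ om : (p : M) → TangentSpace 𝓘(ℝ, E) p [⋀^Fin 4]→ₗ[ℝ] ℝ, IsOrientation om →
      HalfFlat cov 3 om 1 ∨ HalfFlat cov 3 om (-1) ∨ LocallyS2S2 cov 3

theorem target_of_target3 (h : Target3) : Final.Target := by
  intro E _ _ _ hE M _ _ _ _ _ _ m hb cov hcov lam hlam hEin hsec om hom
  have hc : 0 < lam / 3 := by positivity
  have h3 : lam / (lam / 3) = 3 := by field_simp
  have hEi := einstein_scale _ hc hcov hEin
  rw [h3] at hEi
  have key := @h E _ _ _ hE M _ _ _ _ _ _ (scaleM (lam / 3) hc m)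
    (bundle_scaleG (lam / 3) hc m) cov (levi_scale _ hc hcov)
    hEi (sec_scale _ hc hsec) _ (orient_scale _ hc hom)
  rcases key with h | h | h
  · exact Or.inl (halfFlat_of_scale _ hc hcov (by rw [h3]; exact h))
  · exact Or.inr (Or.inl (halfFlat_of_scale _ hc hcov (by rw [h3]; exact h)))
  · exact Or.inr (Or.inr (s2s2_of_scale _ hc hcov (by rw [h3]; exact h)))

end Vale.Agent.P211.H210
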